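import Vale.Agent.P154.PExpr

/-!
# Certificate I (generated)
-/

namespace Vale.Agent.P154.CertI

open PE

def q : PE := X 0
def h : PE := X 1
def r : PE := X 2
def Q : PE := X 3
def k : PE := X 4
def s : PE := X 5
def e : PE := q + h + r
def E : PE := Q + k + s
def A : PE := h*(e + q) + q*r
def B : PE := k*(E + Q) + Q*s
def Tz : PE := 3*r*e - A
def Ty : PE := 3*s*E - B
def Dz : PE := 4*r^3*e - (A - 2*r*e)^2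
def Dy : PE := 4*s^3*E - (B - 2*s*E)^2
def P14z : PE := 9*r*e + 16*r^2 - 4*A
def P14y : PE := 9*s*E + 16*s^2 - 4*B
def P12z : PE := 5*r*e + 4*r^2 - 2*A
def P12y : PE := 5*s*E + 4*s^2 - 2*B
def N14z : PE := 4*A - 7*r*e + 16*r^2
def N14y : PE := 4*B - 7*s*E + 16*s^2
def N12z : PE := 2*A - 3*r*e + 4*r^2
def N12y : PE := 2*B - 3*s*E + 4*s^2
def N1z : PE := A - 1*r*e + 1*r^2
def N1y : PE := B - 1*s*E + 1*s^2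
def U2 : PE := 2*(q^2*E^2 + Q^2*e^2 - q^2*Q^2) + 3*(A*B)
/-- the polynomial, times 1600 -/
def F : PE := e*E*(1600*(r*s*(q^2*(Q + k)*E + Q^2*(q + h)*e)) + 760*(U2*(s*h + r*k)) - 800*((q + h)*(Q + k)*A*B))
/-- certificate, part 0 -/
def G0 : PE :=
  258*((A*q*h)*(P14y*Q*k) + (P14z*q*h)*(B*Q*k))
  + 860*((N1z*h*r)*(Ty*Q*k) + (Tz*q*h)*(N1y*k*s))
  + 844*((A*h*r)*(Ty*Q^2) + (Tz*q^2)*(B*k*s))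
  + 360*((A*q*h)*(P12y*Q^2) + (P12z*q^2)*(B*Q*k))
  + 318*((h*q^3)*(N12y*s^2) + (N12z*r^2)*(k*Q^3))
  + 141*((A*q*r)*(P14y*Q*k) + (P14z*q*h)*(B*Q*s))
  + 268*((A*h^2)*(P12y*Q^2) + (P12z*q^2)*(B*k^2))
  + 133*((A*q*h)*(P14y*Q*s) + (P14z*q*r)*(B*Q*k))
/-- certificate, part 1 -/
def G1 : PE :=
  130*((A*q^2)*(P14y*Q*k) + (P14z*q*h)*(B*Q^2))
  + 444*((A*q*r)*(Ty*Q^2) + (Tz*q^2)*(B*Q*s))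
  + 428*((A*h^2)*(Dy) + (Dz)*(B*k^2))
  + 210*((A*q*h)*(P12y*k^2) + (P12z*h^2)*(B*Q*k))
  + 192*((A*q^2)*(P12y*Q^2) + (P12z*q^2)*(B*Q^2))
  + 360*((h*q*r^2)*(Ty*Q^2) + (Tz*q^2)*(k*Q*s^2))
  + 360*((r*q*h*r)*(Ty*Q^2) + (Tz*q^2)*(s*Q*k*s))
  + 77*((A*q^2)*(P14y*Q*s) + (P14z*q*r)*(B*Q^2))
/-- certificate, part 2 -/
def G2 : PE :=
  272*((r*q^3)*(Ty*Q^2) + (Tz*q^2)*(s*Q^3))
  + 124*((A*q*r)*(P12y*Q^2) + (P12z*q^2)*(B*Q*s))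
  + 240*((A*q*h)*(Dy) + (Dz)*(B*Q*k))
  + 51*((h*q^2*r)*(P14y*Q*s) + (P14z*q*r)*(k*Q^2*s))
  + 51*((r*q^2*h)*(P14y*Q*s) + (P14z*q*r)*(s*Q^2*k))
  + 136*((A*q^2)*(Dy) + (Dz)*(B*Q^2))
  + 64*((A*q^2)*(P12y*k^2) + (P12z*h^2)*(B*Q^2))
  + 50*((A*h^2)*(P12y*Q*k) + (P12z*q*h)*(B*k^2))
/-- certificate, part 3 -/
def G3 : PE :=
  96*((h*h^3)*(Ty*Q*k) + (Tz*q*h)*(k*k^3))
  + 48*((P12z*q^2)*(N1y*Q*s) + (N1z*q*r)*(P12y*Q^2))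
  + 92*((h*q^2*h)*(Dy) + (Dz)*(k*Q^2*k))
  + 92*((r*q^3)*(Dy) + (Dz)*(s*Q^3))
  + 92*((A*q*h)*(Ty*Q^2) + (Tz*q^2)*(B*Q*k))
  + 5*((P14z*q*r)*(N14y*Q^2) + (N14z*q^2)*(P14y*Q*s))
  + 18*((A*q*r)*(P14y*Q*s) + (P14z*q*r)*(B*Q*s))
  + 68*((N1z*q*r)*(Ty*k^2) + (Tz*h^2)*(N1y*Q*s))
/-- certificate, part 4 -/
def G4 : PE :=
  56*((h*h^3)*(Ty*Q^2) + (Tz*q^2)*(k*k^3))
  + 36*((h*q^2*r)*(Ty*k^2) + (Tz*h^2)*(k*Q^2*s))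
  + 36*((r*q^2*h)*(Ty*k^2) + (Tz*h^2)*(s*Q^2*k))
  + 24*((A*q^2)*(Ty*Q^2) + (Tz*q^2)*(B*Q^2))
  + 16*((A*h^2)*(Ty*Q^2) + (Tz*q^2)*(B*k^2))
def G : PE := G0 + G1 + G2 + G3 + G4

theorem check_eq : check 6 F G = true := by decide +kernel

end Vale.Agent.P154.CertI
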