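import Vale.Agent.P154.PExpr

/-!
# Certificate II (generated)
-/

namespace Vale.Agent.P154.CertII

open PE

def q : PE := X 0
def h : PE := X 1
def r : PE := X 2
def Q : PE := X 3
def k : PE := X 4
def s : PE := X 5
def e : PE := q + h + r
def E : PE := Q + k + s
def A : PE := h*(e + q) + q*r
def B : PE := k*(E + Q) + Q*s
def Tz : PE := 3*r*e - A
def Ty : PE := 3*s*E - B
def Dz : PE := 4*r^3*e - (A - 2*r*e)^2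
def Dy : PE := 4*s^3*E - (B - 2*s*E)^2
def P13z : PE := 7*r*e + 9*r^2 - 3*A
def P13y : PE := 7*s*E + 9*s^2 - 3*B
def P1z : PE := 3*r*e + 1*r^2 - A
def P1y : PE := 3*s*E + 1*s^2 - B
def N13z : PE := 3*A - 5*r*e + 9*r^2
def N13y : PE := 3*B - 5*s*E + 9*s^2
def N23z : PE := 6*A - 8*r*e + 9*r^2
def N23y : PE := 6*B - 8*s*E + 9*s^2
def N1z : PE := A - 1*r*e + 1*r^2
def N1y : PE := B - 1*s*E + 1*s^2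
def U2 : PE := 2*(q^2*E^2 + Q^2*e^2 - q^2*Q^2) + 3*(A*B)
def V : PE := (q + h)^2*(Q + k)^2 + q^2*(Q + k)*s + Q^2*(q + h)*r
def I4 : PE := 4*r^3*e - (A - 2*r*e)^2
def J4 : PE := 4*s^3*E - (B - 2*s*E)^2
def E6 : PE := 3*e^2*E^2 + 6*q*Q*e*E - (r - 2*h)*e*(2*Q^2 + (Q + k)*E) - (s - 2*k)*E*(2*q^2 + (q + h)*e)
/-- the polynomial, times 3600 -/
def F : PE := 150*(E6*(U2^2 - I4*J4) - 18*(V*U2*e^2*E^2))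
/-- certificate, part 0 -/
def G0 : PE :=
  19860*((r*q^4*r)*(N13y*Q^2*k*s) + (N13z*q^2*h*r)*(s*Q^4*s))
  + 13818*((r*q^4*r)*(N13y*Q^3*k) + (N13z*q^3*h)*(s*Q^4*s))
  + 37836*((h*q^2*h^3)*(Ty*Q*k^3) + (Tz*q*h^3)*(k*Q^2*k^3))
  + 6360*((A*q^3*r)*(N13y*Q^2*s^2) + (N13z*q^2*r^2)*(B*Q^3*s))
  + 6333*((r*q^3*r^2)*(N13y*Q^2*s^2) + (N13z*q^2*r^2)*(s*Q^3*s^2))
  + 18000*((A*q*h^3)*(Ty*Q*k^3) + (Tz*q*h^3)*(B*Q*k^3))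
  + 5694*((A*q^3*r)*(N13y*Q^3*s) + (N13z*q^3*r)*(B*Q^3*s))
  + 5658*((A*q^2*r^2)*(N13y*Q^3*s) + (N13z*q^3*r)*(B*Q^2*s^2))
/-- certificate, part 1 -/
def G1 : PE :=
  5595*((r*q^5)*(N13y*Q^2*k*s) + (N13z*q^2*h*r)*(s*Q^5))
  + 16659*((A*q*h^3)*(Dy*Q*k) + (Dz*q*h)*(B*Q*k^3))
  + 5265*((h*q^3*r^2)*(N13y*Q^3*s) + (N13z*q^3*r)*(k*Q^3*s^2))
  + 5265*((r*q^3*h*r)*(N13y*Q^3*s) + (N13z*q^3*r)*(s*Q^3*k*s))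
  + 1929*((r*q^5)*(N23y*Q^3*k) + (N23z*q^3*h)*(s*Q^5))
  + 2850*((A*q^3*r)*(N13y*Q^4) + (N13z*q^4)*(B*Q^3*s))
  + 8154*((N1z*q^2*h^2)*(Dy*k^2) + (Dz*h^2)*(N1y*Q^2*k^2))
  + 2466*((A*q^4)*(N13y*Q^2*s^2) + (N13z*q^2*r^2)*(B*Q^4))
/-- certificate, part 2 -/
def G2 : PE :=
  2445*((A*q^2*r^2)*(N13y*Q^4) + (N13z*q^4)*(B*Q^2*s^2))
  + 6876*((h*q^2*h^3)*(Dy*k^2) + (Dz*h^2)*(k*Q^2*k^3))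
  + 5661*((A*q*h^3)*(Dy*k^2) + (Dz*h^2)*(B*Q*k^3))
  + 1470*((A*q^4)*(N13y*Q^3*s) + (N13z*q^3*r)*(B*Q^4))
  + 627*((r*q^4*r)*(N23y*Q^3*k) + (N23z*q^3*h)*(s*Q^4*s))
  + 1014*((r*q^5)*(N13y*Q^4) + (N13z*q^4)*(s*Q^5))
  + 1014*((r*q^5)*(N13y*Q^3*s) + (N13z*q^3*r)*(s*Q^5))
  + 762*((A*q^4)*(N13y*Q^3*k) + (N13z*q^3*h)*(B*Q^4))
/-- certificate, part 3 -/
def G3 : PE :=
  1854*((r*q^5)*(Ty*k*s^3) + (Tz*h*r^3)*(s*Q^5))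
  + 594*((N13z*q^3*r)*(Ty*Q^3*s) + (Tz*q^3*r)*(N13y*Q^3*s))
  + 375*((N13z*q^4)*(P1y*Q^3*s) + (P1z*q^3*r)*(N13y*Q^4))
  + 1089*((P1z*q^3*r)*(Dy*Q^2) + (Dz*q^2)*(P1y*Q^3*s))
  + 345*((h*h^3*r^2)*(N13y*Q^4) + (N13z*q^4)*(k*k^3*s^2))
  + 345*((r*h^4*r)*(N13y*Q^4) + (N13z*q^4)*(s*k^4*s))
  + 318*((N13z*q^4)*(P1y*k^3*s) + (P1z*h^3*r)*(N13y*Q^4))
  + 261*((P13z*q^4)*(Dy*Q^2) + (Dz*q^2)*(P13y*Q^4))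
/-- certificate, part 4 -/
def G4 : PE :=
  31*((N23z*q^4)*(N23y*Q^4))
  + 141*((r*q^5)*(N13y*Q^2*s^2) + (N13z*q^2*r^2)*(s*Q^5))
  + 396*((P1z*q^4)*(Dy*Q^2) + (Dz*q^2)*(P1y*Q^4))
  + 90*((P1z*q^4)*(Dy*Q*s) + (Dz*q*r)*(P1y*Q^4))
  + 12*((A*q^4)*(N13y*Q^4) + (N13z*q^4)*(B*Q^4))
def G : PE := G0 + G1 + G2 + G3 + G4

theorem check_eq : check 6 F G = true := by decide +kernel

end Vale.Agent.P154.CertII
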