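import Vale.Agent.P154.LocPD
import Vale.Agent.P154.PEq

/-!
# Averages of the polynomials over the six relabellings
-/

namespace Vale.Agent.P154.Loc

namespace AvPoly

open PE

/-- sum -/
def eS (a b c : PE) : PE := a + b + c
/-- `18 D² r` -/
def eN (a b c : PE) : PE := 3 * (a ^ 2 + b ^ 2 + c ^ 2) - eS a b c ^ 2
/-- `108 D³ t` -/
def eT (a b c : PE) : PE := 54 * (a * b * c) - 2 * eS a b c ^ 3 + 3 * (eS a b c * eN a b c)

/-- the polynomial for `r`, upper -/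
def ePru (a b c : PE) : PE :=
  12 * (eN a b c * (6 - eS a b c)) + (eS a b c - 3) ^ 2 * (5 * eN a b c + 8 * (eS a b c - 3) ^ 2)
/-- the polynomial for `r`, lower -/
def ePrl (a b c : PE) : PE := eN a b c * (6 - eS a b c)
/-- the polynomial for `t`, upper -/
def ePtu (a b c : PE) : PE :=
  3 * (eT a b c * (9 - 2 * eS a b c)) +
    (eS a b c - 3) ^ 2 * (18 * eN a b c - 36 * (eS a b c - 3) - 12 * (eS a b c - 3) ^ 2)
/-- the polynomial for `t`, lower -/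
def ePtl (a b c : PE) : PE :=
  -(2 * (eT a b c * (9 - 2 * eS a b c))) +
    (eS a b c - 3) ^ 2 * (6 * eN a b c - 3 * (eS a b c - 3) - (eS a b c - 3) ^ 2)
/-- the polynomial for `r²` -/
def ePRu (a b c : PE) : PE :=
  5 * (eN a b c ^ 2 * (4 - eS a b c)) +
    (eS a b c - 3) ^ 2 * (32 * eN a b c + 5 * eT a b c + 42 * (eS a b c - 3) ^ 2)

/-- six times the average -/
def eAv (P : PE → PE → PE → PE) (x1 x2 x3 y1 y2 y3 : PE) : PE :=
  P (x1 * y1) (x2 * y2) (x3 * y3) + P (x1 * y2) (x2 * y1) (x3 * y3)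
    + P (x1 * y3) (x2 * y2) (x3 * y1) + P (x1 * y1) (x2 * y3) (x3 * y2)
    + P (x1 * y2) (x2 * y3) (x3 * y1) + P (x1 * y3) (x2 * y1) (x3 * y2)

section
variable (v : ℕ → ℝ) (a b c : PE)

theorem den_eS : den v (eS a b c) = 3 * wD (den v a) (den v b) (den v c) := by
  simp only [eS, den_add, wD]
  ring

theorem den_eN : den v (eN a b c) = 18 * wn (den v a) (den v b) (den v c) := by
  simp only [eN, den_eS, den_add, den_sub, den_mul, den_pow, den_ofNat, Nat.cast_ofNat, wn, wD]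
  ring

theorem den_eT : den v (eT a b c) = 108 * wt (den v a) (den v b) (den v c) := by
  simp only [eT, den_eS, den_eN, den_add, den_sub, den_mul, den_pow, den_ofNat, Nat.cast_ofNat, wt]
  ring

theorem den_ePru : den v (ePru a b c) = 648 * PKru (den v a) (den v b) (den v c) := by
  simp only [ePru, den_eS, den_eN, den_eT, den_add, den_sub, den_mul, den_pow, den_ofNat,
    Nat.cast_ofNat, PKru]
  ring

theorem den_ePrl : den v (ePrl a b c) = 54 * PKrl (den v a) (den v b) (den v c) := by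
  simp only [ePrl, den_eS, den_eN, den_eT, den_add, den_sub, den_mul, den_pow, den_ofNat,
    Nat.cast_ofNat, PKrl]
  ring

theorem den_ePtu : den v (ePtu a b c) = 972 * PKtu (den v a) (den v b) (den v c) := by
  simp only [ePtu, den_eS, den_eN, den_eT, den_add, den_sub, den_mul, den_pow, den_ofNat,
    Nat.cast_ofNat, PKtu]
  ring

theorem den_ePtl : den v (ePtl a b c) = 648 * PKtl (den v a) (den v b) (den v c) := by
  simp only [ePtl, den_eS, den_eN, den_eT, den_add, den_sub, den_neg, den_mul, den_pow, den_ofNat,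
    Nat.cast_ofNat, PKtl]
  ring

theorem den_ePRu : den v (ePRu a b c) = 1620 * PKRu (den v a) (den v b) (den v c) := by
  simp only [ePRu, den_eS, den_eN, den_eT, den_add, den_sub, den_mul, den_pow, den_ofNat,
    Nat.cast_ofNat, PKRu]
  ring

end

theorem den_eAv (v : ℕ → ℝ) {P : PE → PE → PE → PE} {Q : ℝ → ℝ → ℝ → ℝ} {K : ℝ}
    (h : ∀ a b c, den v (P a b c) = K * Q (den v a) (den v b) (den v c))
    (x1 x2 x3 y1 y2 y3 : PE) :
    den v (eAv P x1 x2 x3 y1 y2 y3) =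
      6 * K * av Q (den v x1) (den v x2) (den v x3) (den v y1) (den v y2) (den v y3) := by
  simp only [eAv, den_add, h, den_mul, av]
  ring

/-- the valuation -/
noncomputable def vl (x1 x2 y1 y2 : ℝ) : ℕ → ℝ
  | 0 => x1
  | 1 => x2
  | 2 => y1
  | _ => y2

/-- last coordinate -/
def e3 (i j : ℕ) : PE := 3 - X i - X j

theorem den_e3x (x1 x2 y1 y2 : ℝ) : den (vl x1 x2 y1 y2) (e3 0 1) = 3 - x1 - x2 := by
  simp only [e3, den_sub, den_X, den_ofNat, Nat.cast_ofNat, vl]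

theorem den_e3y (x1 x2 y1 y2 : ℝ) : den (vl x1 x2 y1 y2) (e3 2 3) = 3 - y1 - y2 := by
  simp only [e3, den_sub, den_X, den_ofNat, Nat.cast_ofNat, vl]

/-- `N` of the first vector -/
def nx : PE := eN (X 0) (X 1) (e3 0 1)
/-- `N` of the second vector -/
def ny : PE := eN (X 2) (X 3) (e3 2 3)
/-- `T` of the first vector -/
def tx : PE := eT (X 0) (X 1) (e3 0 1)
/-- `T` of the second vector -/
def ty : PE := eT (X 2) (X 3) (e3 2 3)

/-- average of `P` at the two vectors -/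
def eA (P : PE → PE → PE → PE) : PE := eAv P (X 0) (X 1) (e3 0 1) (X 2) (X 3) (e3 2 3)

theorem cru : kzero 4 63 11 (54 * eA ePru)
    (11664 * (nx + ny) - 648 * (nx * ny) - 216 * (tx * ny + nx * ty) + 45 * (tx * ty)
      + 90 * (nx ^ 2 * ny + nx * ny ^ 2) + 15 * (tx * ny ^ 2 + nx ^ 2 * ty)
      + 17 * (nx ^ 2 * ny ^ 2)) = true := by
  decide +kernel

theorem crl : kzero 4 63 11 (3 * eA ePrl)
    (54 * (nx + ny) - 3 * (nx * ny) - (tx * ny + nx * ty)) = true := by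
  decide +kernel

theorem ctu : kzero 4 63 11 (2 * eA ePtu)
    (108 * (tx + ty) + 216 * (nx * ny) - 36 * (tx * ny + nx * ty) + 5 * (tx * ty)) = true := by
  decide +kernel

theorem ctl : kzero 4 63 11 (12 * eA ePtl)
    (-(432 * (tx + ty)) - 864 * (nx * ny) + 144 * (tx * ny + nx * ty) + 7 * (tx * ty)
      + 72 * (nx ^ 2 * ny + nx * ny ^ 2) + 12 * (tx * ny ^ 2 + nx ^ 2 * ty)
      + nx ^ 2 * ny ^ 2) = true := by
  decide +kernel

theorem cRu : kzero 4 63 11 (324 * eA ePRu)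
    (9720 * (nx ^ 2 + ny ^ 2) + 38880 * (nx * ny) + 6480 * (tx * ny + nx * ty)
      + 1188 * (tx * ty) - 864 * (nx ^ 2 * ny + nx * ny ^ 2)
      - 540 * (nx * tx * ny + nx * (ny * ty)) - 774 * (tx * ny ^ 2 + nx ^ 2 * ty)
      + 45 * (nx * tx * ty + tx * (ny * ty)) + 960 * (nx ^ 2 * ny ^ 2)
      - 15 * (nx * tx * ny ^ 2 + nx ^ 2 * (ny * ty)) + 5 * (nx * tx * (ny * ty))) = true := by
  decide +kernel

section
variable (x1 x2 y1 y2 : ℝ)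

theorem den_nx : den (vl x1 x2 y1 y2) nx = 18 * wn x1 x2 (3 - x1 - x2) := by
  rw [nx, den_eN, den_e3x]; rfl
theorem den_ny : den (vl x1 x2 y1 y2) ny = 18 * wn y1 y2 (3 - y1 - y2) := by
  rw [ny, den_eN, den_e3y]; rfl
theorem den_tx : den (vl x1 x2 y1 y2) tx = 108 * wt x1 x2 (3 - x1 - x2) := by
  rw [tx, den_eT, den_e3x]; rfl
theorem den_ty : den (vl x1 x2 y1 y2) ty = 108 * wt y1 y2 (3 - y1 - y2) := by
  rw [ty, den_eT, den_e3y]; rfl

theorem den_eA {P : PE → PE → PE → PE} {Q : ℝ → ℝ → ℝ → ℝ} {K : ℝ}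
    (h : ∀ a b c, den (vl x1 x2 y1 y2) (P a b c) =
      K * Q (den (vl x1 x2 y1 y2) a) (den (vl x1 x2 y1 y2) b) (den (vl x1 x2 y1 y2) c)) :
    den (vl x1 x2 y1 y2) (eA P) = 6 * K * av Q x1 x2 (3 - x1 - x2) y1 y2 (3 - y1 - y2) := by
  rw [eA, den_eAv _ h, den_e3x, den_e3y]; rfl

end

end AvPoly

open AvPoly PE

theorem av_PKru {x1 x2 x3 y1 y2 y3 : ℝ} (hx : x3 = 3 - x1 - x2) (hy : y3 = 3 - y1 - y2) :
    av PKru x1 x2 x3 y1 y2 y3 =
      wn x1 x2 x3 + wn y1 y2 y3 - wn x1 x2 x3 * wn y1 y2 y3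
        - 2 * (wt x1 x2 x3 * wn y1 y2 y3 + wn x1 x2 x3 * wt y1 y2 y3)
        + 5 / 2 * (wt x1 x2 x3 * wt y1 y2 y3)
        + 5 / 2 * (wn x1 x2 x3 ^ 2 * wn y1 y2 y3 + wn x1 x2 x3 * wn y1 y2 y3 ^ 2)
        + 5 / 2 * (wt x1 x2 x3 * wn y1 y2 y3 ^ 2 + wn x1 x2 x3 ^ 2 * wt y1 y2 y3)
        + 17 / 2 * (wn x1 x2 x3 ^ 2 * wn y1 y2 y3 ^ 2) := by
  subst hx hy
  have h := eq_of_kzero (vl x1 x2 y1 y2) 4 63 11 _ _ cru
  simp only [den_add, den_sub, den_mul, den_pow, den_ofNat, Nat.cast_ofNat, den_nx, den_ny,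
    den_tx, den_ty, den_eA x1 x2 y1 y2 (den_ePru (vl x1 x2 y1 y2))] at h
  linear_combination (1 / 209952) * h

theorem av_PKrl {x1 x2 x3 y1 y2 y3 : ℝ} (hx : x3 = 3 - x1 - x2) (hy : y3 = 3 - y1 - y2) :
    av PKrl x1 x2 x3 y1 y2 y3 =
      wn x1 x2 x3 + wn y1 y2 y3 - wn x1 x2 x3 * wn y1 y2 y3
        - 2 * (wt x1 x2 x3 * wn y1 y2 y3 + wn x1 x2 x3 * wt y1 y2 y3) := by
  subst hx hy
  have h := eq_of_kzero (vl x1 x2 y1 y2) 4 63 11 _ _ crl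
  simp only [den_add, den_sub, den_mul, den_pow, den_ofNat, Nat.cast_ofNat, den_nx, den_ny,
    den_tx, den_ty, den_eA x1 x2 y1 y2 (den_ePrl (vl x1 x2 y1 y2))] at h
  linear_combination (1 / 972) * h

theorem av_PKtu {x1 x2 x3 y1 y2 y3 : ℝ} (hx : x3 = 3 - x1 - x2) (hy : y3 = 3 - y1 - y2) :
    av PKtu x1 x2 x3 y1 y2 y3 =
      wt x1 x2 x3 + wt y1 y2 y3 + 6 * (wn x1 x2 x3 * wn y1 y2 y3)
        - 6 * (wt x1 x2 x3 * wn y1 y2 y3 + wn x1 x2 x3 * wt y1 y2 y3)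
        + 5 * (wt x1 x2 x3 * wt y1 y2 y3) := by
  subst hx hy
  have h := eq_of_kzero (vl x1 x2 y1 y2) 4 63 11 _ _ ctu
  simp only [den_add, den_sub, den_mul, den_pow, den_ofNat, Nat.cast_ofNat, den_nx, den_ny,
    den_tx, den_ty, den_eA x1 x2 y1 y2 (den_ePtu (vl x1 x2 y1 y2))] at h
  linear_combination (1 / 11664) * h

theorem av_PKtl {x1 x2 x3 y1 y2 y3 : ℝ} (hx : x3 = 3 - x1 - x2) (hy : y3 = 3 - y1 - y2) :
    av PKtl x1 x2 x3 y1 y2 y3 =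
      - wt x1 x2 x3 - wt y1 y2 y3 - 6 * (wn x1 x2 x3 * wn y1 y2 y3)
        + 6 * (wt x1 x2 x3 * wn y1 y2 y3 + wn x1 x2 x3 * wt y1 y2 y3)
        + 7 / 4 * (wt x1 x2 x3 * wt y1 y2 y3)
        + 9 * (wn x1 x2 x3 ^ 2 * wn y1 y2 y3 + wn x1 x2 x3 * wn y1 y2 y3 ^ 2)
        + 9 * (wt x1 x2 x3 * wn y1 y2 y3 ^ 2 + wn x1 x2 x3 ^ 2 * wt y1 y2 y3)
        + 9 / 4 * (wn x1 x2 x3 ^ 2 * wn y1 y2 y3 ^ 2) := by
  subst hx hy
  have h := eq_of_kzero (vl x1 x2 y1 y2) 4 63 11 _ _ ctl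
  simp only [den_add, den_sub, den_neg, den_mul, den_pow, den_ofNat, Nat.cast_ofNat, den_nx,
    den_ny, den_tx, den_ty, den_eA x1 x2 y1 y2 (den_ePtl (vl x1 x2 y1 y2))] at h
  linear_combination (1 / 46656) * h

theorem av_PKRu {x1 x2 x3 y1 y2 y3 : ℝ} (hx : x3 = 3 - x1 - x2) (hy : y3 = 3 - y1 - y2) :
    av PKRu x1 x2 x3 y1 y2 y3 =
      wn x1 x2 x3 ^ 2 + wn y1 y2 y3 ^ 2 + 4 * (wn x1 x2 x3 * wn y1 y2 y3)
        + 4 * (wt x1 x2 x3 * wn y1 y2 y3 + wn x1 x2 x3 * wt y1 y2 y3)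
        + 22 / 5 * (wt x1 x2 x3 * wt y1 y2 y3)
        - 8 / 5 * (wn x1 x2 x3 ^ 2 * wn y1 y2 y3 + wn x1 x2 x3 * wn y1 y2 y3 ^ 2)
        - 6 * (wn x1 x2 x3 * wt x1 x2 x3 * wn y1 y2 y3 + wn x1 x2 x3 * (wn y1 y2 y3 * wt y1 y2 y3))
        - 43 / 5 * (wt x1 x2 x3 * wn y1 y2 y3 ^ 2 + wn x1 x2 x3 ^ 2 * wt y1 y2 y3)
        + 3 * (wn x1 x2 x3 * wt x1 x2 x3 * wt y1 y2 y3 + wt x1 x2 x3 * (wn y1 y2 y3 * wt y1 y2 y3))
        + 32 * (wn x1 x2 x3 ^ 2 * wn y1 y2 y3 ^ 2)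
        - 3 * (wn x1 x2 x3 * wt x1 x2 x3 * wn y1 y2 y3 ^ 2
          + wn x1 x2 x3 ^ 2 * (wn y1 y2 y3 * wt y1 y2 y3))
        + 6 * (wn x1 x2 x3 * wt x1 x2 x3 * (wn y1 y2 y3 * wt y1 y2 y3)) := by
  subst hx hy
  have h := eq_of_kzero (vl x1 x2 y1 y2) 4 63 11 _ _ cRu
  simp only [den_add, den_sub, den_mul, den_pow, den_ofNat, Nat.cast_ofNat, den_nx, den_ny,
    den_tx, den_ty, den_eA x1 x2 y1 y2 (den_ePRu (vl x1 x2 y1 y2))] at h
  linear_combination (1 / 3149280) * h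

end Vale.Agent.P154.Loc
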