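import Vale.Agent.P154.Q4

/-!
# Monomial means in terms of elementary symmetric functions (generated)
-/

namespace Vale.Agent.P154

/-- elementary symmetric functions of four numbers -/
def el1 (x y z t : ℝ) : ℝ := x + y + z + t
/-- elementary symmetric functions of four numbers -/
def el2 (x y z t : ℝ) : ℝ := x * y + x * z + x * t + y * z + y * t + z * t
/-- elementary symmetric functions of four numbers -/
def el3 (x y z t : ℝ) : ℝ := x * y * z + x * y * t + x * z * t + y * z * t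
/-- elementary symmetric functions of four numbers -/
def el4 (x y z t : ℝ) : ℝ := x * y * z * t

theorem mtE_0000 (x y z t : ℝ) : mt4 0 0 0 0 x y z t =
    (1) * (1) := by
  simp only [mt4, S24, el1, el2, el3, el4]
  ring

theorem mtE_1000 (x y z t : ℝ) : mt4 1 0 0 0 x y z t =
    (1 / 4) * ((el1 x y z t)) := by
  simp only [mt4, S24, el1, el2, el3, el4]
  ring

theorem mtE_2000 (x y z t : ℝ) : mt4 2 0 0 0 x y z t =
    (-1 / 2) * ((el2 x y z t)) +
    (1 / 4) * ((el1 x y z t) ^ 2) := by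
  simp only [mt4, S24, el1, el2, el3, el4]
  ring

theorem mtE_1100 (x y z t : ℝ) : mt4 1 1 0 0 x y z t =
    (1 / 6) * ((el2 x y z t)) := by
  simp only [mt4, S24, el1, el2, el3, el4]
  ring

theorem mtE_3000 (x y z t : ℝ) : mt4 3 0 0 0 x y z t =
    (3 / 4) * ((el3 x y z t)) +
    (-3 / 4) * ((el1 x y z t) * (el2 x y z t)) +
    (1 / 4) * ((el1 x y z t) ^ 3) := by
  simp only [mt4, S24, el1, el2, el3, el4]
  ring

theorem mtE_2100 (x y z t : ℝ) : mt4 2 1 0 0 x y z t =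
    (-1 / 4) * ((el3 x y z t)) +
    (1 / 12) * ((el1 x y z t) * (el2 x y z t)) := by
  simp only [mt4, S24, el1, el2, el3, el4]
  ring

theorem mtE_1110 (x y z t : ℝ) : mt4 1 1 1 0 x y z t =
    (1 / 4) * ((el3 x y z t)) := by
  simp only [mt4, S24, el1, el2, el3, el4]
  ring

theorem mtE_4000 (x y z t : ℝ) : mt4 4 0 0 0 x y z t =
    (-1) * ((el4 x y z t)) +
    (1 / 2) * ((el2 x y z t) ^ 2) +
    (1) * ((el1 x y z t) * (el3 x y z t)) +
    (-1) * ((el1 x y z t) ^ 2 * (el2 x y z t)) +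
    (1 / 4) * ((el1 x y z t) ^ 4) := by
  simp only [mt4, S24, el1, el2, el3, el4]
  ring

theorem mtE_3100 (x y z t : ℝ) : mt4 3 1 0 0 x y z t =
    (1 / 3) * ((el4 x y z t)) +
    (-1 / 6) * ((el2 x y z t) ^ 2) +
    (-1 / 12) * ((el1 x y z t) * (el3 x y z t)) +
    (1 / 12) * ((el1 x y z t) ^ 2 * (el2 x y z t)) := by
  simp only [mt4, S24, el1, el2, el3, el4]
  ring

theorem mtE_2200 (x y z t : ℝ) : mt4 2 2 0 0 x y z t =
    (1 / 3) * ((el4 x y z t)) +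
    (1 / 6) * ((el2 x y z t) ^ 2) +
    (-1 / 3) * ((el1 x y z t) * (el3 x y z t)) := by
  simp only [mt4, S24, el1, el2, el3, el4]
  ring

theorem mtE_2110 (x y z t : ℝ) : mt4 2 1 1 0 x y z t =
    (-1 / 3) * ((el4 x y z t)) +
    (1 / 12) * ((el1 x y z t) * (el3 x y z t)) := by
  simp only [mt4, S24, el1, el2, el3, el4]
  ring

theorem mtE_1111 (x y z t : ℝ) : mt4 1 1 1 1 x y z t =
    (1) * ((el4 x y z t)) := by
  simp only [mt4, S24, el1, el2, el3, el4]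
  ring

theorem mtE_5000 (x y z t : ℝ) : mt4 5 0 0 0 x y z t =
    (-5 / 4) * ((el2 x y z t) * (el3 x y z t)) +
    (-5 / 4) * ((el1 x y z t) * (el4 x y z t)) +
    (5 / 4) * ((el1 x y z t) * (el2 x y z t) ^ 2) +
    (5 / 4) * ((el1 x y z t) ^ 2 * (el3 x y z t)) +
    (-5 / 4) * ((el1 x y z t) ^ 3 * (el2 x y z t)) +
    (1 / 4) * ((el1 x y z t) ^ 5) := by
  simp only [mt4, S24, el1, el2, el3, el4]
  ring

theorem mtE_4100 (x y z t : ℝ) : mt4 4 1 0 0 x y z t =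
    (5 / 12) * ((el2 x y z t) * (el3 x y z t)) +
    (1 / 12) * ((el1 x y z t) * (el4 x y z t)) +
    (-1 / 4) * ((el1 x y z t) * (el2 x y z t) ^ 2) +
    (-1 / 12) * ((el1 x y z t) ^ 2 * (el3 x y z t)) +
    (1 / 12) * ((el1 x y z t) ^ 3 * (el2 x y z t)) := by
  simp only [mt4, S24, el1, el2, el3, el4]
  ring

theorem mtE_3200 (x y z t : ℝ) : mt4 3 2 0 0 x y z t =
    (-1 / 12) * ((el2 x y z t) * (el3 x y z t)) +
    (5 / 12) * ((el1 x y z t) * (el4 x y z t)) +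
    (1 / 12) * ((el1 x y z t) * (el2 x y z t) ^ 2) +
    (-1 / 6) * ((el1 x y z t) ^ 2 * (el3 x y z t)) := by
  simp only [mt4, S24, el1, el2, el3, el4]
  ring

theorem mtE_3110 (x y z t : ℝ) : mt4 3 1 1 0 x y z t =
    (-1 / 6) * ((el2 x y z t) * (el3 x y z t)) +
    (-1 / 12) * ((el1 x y z t) * (el4 x y z t)) +
    (1 / 12) * ((el1 x y z t) ^ 2 * (el3 x y z t)) := by
  simp only [mt4, S24, el1, el2, el3, el4]
  ring

theorem mtE_2210 (x y z t : ℝ) : mt4 2 2 1 0 x y z t =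
    (1 / 12) * ((el2 x y z t) * (el3 x y z t)) +
    (-1 / 4) * ((el1 x y z t) * (el4 x y z t)) := by
  simp only [mt4, S24, el1, el2, el3, el4]
  ring

theorem mtE_2111 (x y z t : ℝ) : mt4 2 1 1 1 x y z t =
    (1 / 4) * ((el1 x y z t) * (el4 x y z t)) := by
  simp only [mt4, S24, el1, el2, el3, el4]
  ring

theorem mtE_6000 (x y z t : ℝ) : mt4 6 0 0 0 x y z t =
    (3 / 4) * ((el3 x y z t) ^ 2) +
    (3 / 2) * ((el2 x y z t) * (el4 x y z t)) +
    (-1 / 2) * ((el2 x y z t) ^ 3) +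
    (-3) * ((el1 x y z t) * (el2 x y z t) * (el3 x y z t)) +
    (-3 / 2) * ((el1 x y z t) ^ 2 * (el4 x y z t)) +
    (9 / 4) * ((el1 x y z t) ^ 2 * (el2 x y z t) ^ 2) +
    (3 / 2) * ((el1 x y z t) ^ 3 * (el3 x y z t)) +
    (-3 / 2) * ((el1 x y z t) ^ 4 * (el2 x y z t)) +
    (1 / 4) * ((el1 x y z t) ^ 6) := by
  simp only [mt4, S24, el1, el2, el3, el4]
  ring

theorem mtE_5100 (x y z t : ℝ) : mt4 5 1 0 0 x y z t =
    (-1 / 4) * ((el3 x y z t) ^ 2) +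
    (-1 / 2) * ((el2 x y z t) * (el4 x y z t)) +
    (1 / 6) * ((el2 x y z t) ^ 3) +
    (7 / 12) * ((el1 x y z t) * (el2 x y z t) * (el3 x y z t)) +
    (1 / 12) * ((el1 x y z t) ^ 2 * (el4 x y z t)) +
    (-1 / 3) * ((el1 x y z t) ^ 2 * (el2 x y z t) ^ 2) +
    (-1 / 12) * ((el1 x y z t) ^ 3 * (el3 x y z t)) +
    (1 / 12) * ((el1 x y z t) ^ 4 * (el2 x y z t)) := by
  simp only [mt4, S24, el1, el2, el3, el4]
  ring

theorem mtE_4200 (x y z t : ℝ) : mt4 4 2 0 0 x y z t =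
    (-1 / 4) * ((el3 x y z t) ^ 2) +
    (1 / 6) * ((el2 x y z t) * (el4 x y z t)) +
    (-1 / 6) * ((el2 x y z t) ^ 3) +
    (1 / 3) * ((el1 x y z t) * (el2 x y z t) * (el3 x y z t)) +
    (1 / 6) * ((el1 x y z t) ^ 2 * (el4 x y z t)) +
    (1 / 12) * ((el1 x y z t) ^ 2 * (el2 x y z t) ^ 2) +
    (-1 / 6) * ((el1 x y z t) ^ 3 * (el3 x y z t)) := by
  simp only [mt4, S24, el1, el2, el3, el4]
  ring

theorem mtE_4110 (x y z t : ℝ) : mt4 4 1 1 0 x y z t =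
    (1 / 4) * ((el3 x y z t) ^ 2) +
    (1 / 6) * ((el2 x y z t) * (el4 x y z t)) +
    (-1 / 4) * ((el1 x y z t) * (el2 x y z t) * (el3 x y z t)) +
    (-1 / 12) * ((el1 x y z t) ^ 2 * (el4 x y z t)) +
    (1 / 12) * ((el1 x y z t) ^ 3 * (el3 x y z t)) := by
  simp only [mt4, S24, el1, el2, el3, el4]
  ring

theorem mtE_3300 (x y z t : ℝ) : mt4 3 3 0 0 x y z t =
    (1 / 2) * ((el3 x y z t) ^ 2) +
    (-1 / 2) * ((el2 x y z t) * (el4 x y z t)) +
    (1 / 6) * ((el2 x y z t) ^ 3) +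
    (-1 / 2) * ((el1 x y z t) * (el2 x y z t) * (el3 x y z t)) +
    (1 / 2) * ((el1 x y z t) ^ 2 * (el4 x y z t)) := by
  simp only [mt4, S24, el1, el2, el3, el4]
  ring

theorem mtE_3210 (x y z t : ℝ) : mt4 3 2 1 0 x y z t =
    (-1 / 8) * ((el3 x y z t) ^ 2) +
    (1 / 6) * ((el2 x y z t) * (el4 x y z t)) +
    (1 / 24) * ((el1 x y z t) * (el2 x y z t) * (el3 x y z t)) +
    (-1 / 8) * ((el1 x y z t) ^ 2 * (el4 x y z t)) := by
  simp only [mt4, S24, el1, el2, el3, el4]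
  ring

theorem mtE_3111 (x y z t : ℝ) : mt4 3 1 1 1 x y z t =
    (-1 / 2) * ((el2 x y z t) * (el4 x y z t)) +
    (1 / 4) * ((el1 x y z t) ^ 2 * (el4 x y z t)) := by
  simp only [mt4, S24, el1, el2, el3, el4]
  ring

theorem mtE_2220 (x y z t : ℝ) : mt4 2 2 2 0 x y z t =
    (1 / 4) * ((el3 x y z t) ^ 2) +
    (-1 / 2) * ((el2 x y z t) * (el4 x y z t)) := by
  simp only [mt4, S24, el1, el2, el3, el4]
  ring

theorem mtE_2211 (x y z t : ℝ) : mt4 2 2 1 1 x y z t =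
    (1 / 6) * ((el2 x y z t) * (el4 x y z t)) := by
  simp only [mt4, S24, el1, el2, el3, el4]
  ring

end Vale.Agent.P154
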