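import Vale.Agent.P154.MtA

/-!
# Monomial means in terms of elementary symmetric functions (generated)
-/

namespace Vale.Agent.P154

theorem mtE_7000 (x y z t : ℝ) : mt4 7 0 0 0 x y z t =
    (-7 / 4) * ((el3 x y z t) * (el4 x y z t)) +
    (7 / 4) * ((el2 x y z t) ^ 2 * (el3 x y z t)) +
    (7 / 4) * ((el1 x y z t) * (el3 x y z t) ^ 2) +
    (7 / 2) * ((el1 x y z t) * (el2 x y z t) * (el4 x y z t)) +
    (-7 / 4) * ((el1 x y z t) * (el2 x y z t) ^ 3) +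
    (-21 / 4) * ((el1 x y z t) ^ 2 * (el2 x y z t) * (el3 x y z t)) +
    (-7 / 4) * ((el1 x y z t) ^ 3 * (el4 x y z t)) +
    (7 / 2) * ((el1 x y z t) ^ 3 * (el2 x y z t) ^ 2) +
    (7 / 4) * ((el1 x y z t) ^ 4 * (el3 x y z t)) +
    (-7 / 4) * ((el1 x y z t) ^ 5 * (el2 x y z t)) +
    (1 / 4) * ((el1 x y z t) ^ 7) := by
  simp only [mt4, S24, el1, el2, el3, el4]
  ring

theorem mtE_6100 (x y z t : ℝ) : mt4 6 1 0 0 x y z t =
    (7 / 12) * ((el3 x y z t) * (el4 x y z t)) +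
    (-7 / 12) * ((el2 x y z t) ^ 2 * (el3 x y z t)) +
    (-1 / 3) * ((el1 x y z t) * (el3 x y z t) ^ 2) +
    (-2 / 3) * ((el1 x y z t) * (el2 x y z t) * (el4 x y z t)) +
    (5 / 12) * ((el1 x y z t) * (el2 x y z t) ^ 3) +
    (3 / 4) * ((el1 x y z t) ^ 2 * (el2 x y z t) * (el3 x y z t)) +
    (1 / 12) * ((el1 x y z t) ^ 3 * (el4 x y z t)) +
    (-5 / 12) * ((el1 x y z t) ^ 3 * (el2 x y z t) ^ 2) +
    (-1 / 12) * ((el1 x y z t) ^ 4 * (el3 x y z t)) +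
    (1 / 12) * ((el1 x y z t) ^ 5 * (el2 x y z t)) := by
  simp only [mt4, S24, el1, el2, el3, el4]
  ring

theorem mtE_5200 (x y z t : ℝ) : mt4 5 2 0 0 x y z t =
    (7 / 12) * ((el3 x y z t) * (el4 x y z t)) +
    (1 / 4) * ((el2 x y z t) ^ 2 * (el3 x y z t)) +
    (-7 / 12) * ((el1 x y z t) * (el3 x y z t) ^ 2) +
    (-1 / 3) * ((el1 x y z t) * (el2 x y z t) * (el4 x y z t)) +
    (-1 / 4) * ((el1 x y z t) * (el2 x y z t) ^ 3) +
    (1 / 2) * ((el1 x y z t) ^ 2 * (el2 x y z t) * (el3 x y z t)) +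
    (1 / 6) * ((el1 x y z t) ^ 3 * (el4 x y z t)) +
    (1 / 12) * ((el1 x y z t) ^ 3 * (el2 x y z t) ^ 2) +
    (-1 / 6) * ((el1 x y z t) ^ 4 * (el3 x y z t)) := by
  simp only [mt4, S24, el1, el2, el3, el4]
  ring

theorem mtE_5110 (x y z t : ℝ) : mt4 5 1 1 0 x y z t =
    (-7 / 12) * ((el3 x y z t) * (el4 x y z t)) +
    (1 / 6) * ((el2 x y z t) ^ 2 * (el3 x y z t)) +
    (1 / 3) * ((el1 x y z t) * (el3 x y z t) ^ 2) +
    (1 / 4) * ((el1 x y z t) * (el2 x y z t) * (el4 x y z t)) +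
    (-1 / 3) * ((el1 x y z t) ^ 2 * (el2 x y z t) * (el3 x y z t)) +
    (-1 / 12) * ((el1 x y z t) ^ 3 * (el4 x y z t)) +
    (1 / 12) * ((el1 x y z t) ^ 4 * (el3 x y z t)) := by
  simp only [mt4, S24, el1, el2, el3, el4]
  ring

theorem mtE_4300 (x y z t : ℝ) : mt4 4 3 0 0 x y z t =
    (-5 / 12) * ((el3 x y z t) * (el4 x y z t)) +
    (-1 / 12) * ((el2 x y z t) ^ 2 * (el3 x y z t)) +
    (5 / 12) * ((el1 x y z t) * (el3 x y z t) ^ 2) +
    (-1 / 6) * ((el1 x y z t) * (el2 x y z t) * (el4 x y z t)) +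
    (1 / 12) * ((el1 x y z t) * (el2 x y z t) ^ 3) +
    (-1 / 4) * ((el1 x y z t) ^ 2 * (el2 x y z t) * (el3 x y z t)) +
    (1 / 4) * ((el1 x y z t) ^ 3 * (el4 x y z t)) := by
  simp only [mt4, S24, el1, el2, el3, el4]
  ring

theorem mtE_4210 (x y z t : ℝ) : mt4 4 2 1 0 x y z t =
    (-1 / 12) * ((el3 x y z t) * (el4 x y z t)) +
    (-1 / 12) * ((el2 x y z t) ^ 2 * (el3 x y z t)) +
    (-1 / 24) * ((el1 x y z t) * (el3 x y z t) ^ 2) +
    (1 / 3) * ((el1 x y z t) * (el2 x y z t) * (el4 x y z t)) +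
    (1 / 24) * ((el1 x y z t) ^ 2 * (el2 x y z t) * (el3 x y z t)) +
    (-1 / 8) * ((el1 x y z t) ^ 3 * (el4 x y z t)) := by
  simp only [mt4, S24, el1, el2, el3, el4]
  ring

theorem mtE_4111 (x y z t : ℝ) : mt4 4 1 1 1 x y z t =
    (3 / 4) * ((el3 x y z t) * (el4 x y z t)) +
    (-3 / 4) * ((el1 x y z t) * (el2 x y z t) * (el4 x y z t)) +
    (1 / 4) * ((el1 x y z t) ^ 3 * (el4 x y z t)) := by
  simp only [mt4, S24, el1, el2, el3, el4]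
  ring

theorem mtE_3310 (x y z t : ℝ) : mt4 3 3 1 0 x y z t =
    (5 / 12) * ((el3 x y z t) * (el4 x y z t)) +
    (1 / 12) * ((el2 x y z t) ^ 2 * (el3 x y z t)) +
    (-1 / 6) * ((el1 x y z t) * (el3 x y z t) ^ 2) +
    (-1 / 12) * ((el1 x y z t) * (el2 x y z t) * (el4 x y z t)) := by
  simp only [mt4, S24, el1, el2, el3, el4]
  ring

theorem mtE_3220 (x y z t : ℝ) : mt4 3 2 2 0 x y z t =
    (-1 / 12) * ((el3 x y z t) * (el4 x y z t)) +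
    (1 / 12) * ((el1 x y z t) * (el3 x y z t) ^ 2) +
    (-1 / 6) * ((el1 x y z t) * (el2 x y z t) * (el4 x y z t)) := by
  simp only [mt4, S24, el1, el2, el3, el4]
  ring

theorem mtE_3211 (x y z t : ℝ) : mt4 3 2 1 1 x y z t =
    (-1 / 4) * ((el3 x y z t) * (el4 x y z t)) +
    (1 / 12) * ((el1 x y z t) * (el2 x y z t) * (el4 x y z t)) := by
  simp only [mt4, S24, el1, el2, el3, el4]
  ring

theorem mtE_2221 (x y z t : ℝ) : mt4 2 2 2 1 x y z t =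
    (1 / 4) * ((el3 x y z t) * (el4 x y z t)) := by
  simp only [mt4, S24, el1, el2, el3, el4]
  ring

end Vale.Agent.P154
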