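import Vale.Agent.P154.MtA

/-!
# Monomial means in terms of elementary symmetric functions (generated)
-/

namespace Vale.Agent.P154

theorem mtE_8000 (x y z t : ℝ) : mt4 8 0 0 0 x y z t =
    (1) * ((el4 x y z t) ^ 2) +
    (-2) * ((el2 x y z t) * (el3 x y z t) ^ 2) +
    (-2) * ((el2 x y z t) ^ 2 * (el4 x y z t)) +
    (1 / 2) * ((el2 x y z t) ^ 4) +
    (-4) * ((el1 x y z t) * (el3 x y z t) * (el4 x y z t)) +
    (6) * ((el1 x y z t) * (el2 x y z t) ^ 2 * (el3 x y z t)) +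
    (3) * ((el1 x y z t) ^ 2 * (el3 x y z t) ^ 2) +
    (6) * ((el1 x y z t) ^ 2 * (el2 x y z t) * (el4 x y z t)) +
    (-4) * ((el1 x y z t) ^ 2 * (el2 x y z t) ^ 3) +
    (-8) * ((el1 x y z t) ^ 3 * (el2 x y z t) * (el3 x y z t)) +
    (-2) * ((el1 x y z t) ^ 4 * (el4 x y z t)) +
    (5) * ((el1 x y z t) ^ 4 * (el2 x y z t) ^ 2) +
    (2) * ((el1 x y z t) ^ 5 * (el3 x y z t)) +
    (-2) * ((el1 x y z t) ^ 6 * (el2 x y z t)) +
    (1 / 4) * ((el1 x y z t) ^ 8) := by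
  simp only [mt4, S24, el1, el2, el3, el4]
  ring

theorem mtE_7100 (x y z t : ℝ) : mt4 7 1 0 0 x y z t =
    (-1 / 3) * ((el4 x y z t) ^ 2) +
    (2 / 3) * ((el2 x y z t) * (el3 x y z t) ^ 2) +
    (2 / 3) * ((el2 x y z t) ^ 2 * (el4 x y z t)) +
    (-1 / 6) * ((el2 x y z t) ^ 4) +
    (3 / 4) * ((el1 x y z t) * (el3 x y z t) * (el4 x y z t)) +
    (-17 / 12) * ((el1 x y z t) * (el2 x y z t) ^ 2 * (el3 x y z t)) +
    (-5 / 12) * ((el1 x y z t) ^ 2 * (el3 x y z t) ^ 2) +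
    (-5 / 6) * ((el1 x y z t) ^ 2 * (el2 x y z t) * (el4 x y z t)) +
    (3 / 4) * ((el1 x y z t) ^ 2 * (el2 x y z t) ^ 3) +
    (11 / 12) * ((el1 x y z t) ^ 3 * (el2 x y z t) * (el3 x y z t)) +
    (1 / 12) * ((el1 x y z t) ^ 4 * (el4 x y z t)) +
    (-1 / 2) * ((el1 x y z t) ^ 4 * (el2 x y z t) ^ 2) +
    (-1 / 12) * ((el1 x y z t) ^ 5 * (el3 x y z t)) +
    (1 / 12) * ((el1 x y z t) ^ 6 * (el2 x y z t)) := by
  simp only [mt4, S24, el1, el2, el3, el4]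
  ring

theorem mtE_6200 (x y z t : ℝ) : mt4 6 2 0 0 x y z t =
    (-1 / 3) * ((el4 x y z t) ^ 2) +
    (1 / 6) * ((el2 x y z t) * (el3 x y z t) ^ 2) +
    (-1 / 3) * ((el2 x y z t) ^ 2 * (el4 x y z t)) +
    (1 / 6) * ((el2 x y z t) ^ 4) +
    (4 / 3) * ((el1 x y z t) * (el3 x y z t) * (el4 x y z t)) +
    (-3 / 4) * ((el1 x y z t) ^ 2 * (el3 x y z t) ^ 2) +
    (-1 / 2) * ((el1 x y z t) ^ 2 * (el2 x y z t) * (el4 x y z t)) +
    (-1 / 3) * ((el1 x y z t) ^ 2 * (el2 x y z t) ^ 3) +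
    (2 / 3) * ((el1 x y z t) ^ 3 * (el2 x y z t) * (el3 x y z t)) +
    (1 / 6) * ((el1 x y z t) ^ 4 * (el4 x y z t)) +
    (1 / 12) * ((el1 x y z t) ^ 4 * (el2 x y z t) ^ 2) +
    (-1 / 6) * ((el1 x y z t) ^ 5 * (el3 x y z t)) := by
  simp only [mt4, S24, el1, el2, el3, el4]
  ring

theorem mtE_6110 (x y z t : ℝ) : mt4 6 1 1 0 x y z t =
    (1 / 3) * ((el4 x y z t) ^ 2) +
    (-5 / 12) * ((el2 x y z t) * (el3 x y z t) ^ 2) +
    (-1 / 6) * ((el2 x y z t) ^ 2 * (el4 x y z t)) +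
    (-3 / 4) * ((el1 x y z t) * (el3 x y z t) * (el4 x y z t)) +
    (5 / 12) * ((el1 x y z t) * (el2 x y z t) ^ 2 * (el3 x y z t)) +
    (5 / 12) * ((el1 x y z t) ^ 2 * (el3 x y z t) ^ 2) +
    (1 / 3) * ((el1 x y z t) ^ 2 * (el2 x y z t) * (el4 x y z t)) +
    (-5 / 12) * ((el1 x y z t) ^ 3 * (el2 x y z t) * (el3 x y z t)) +
    (-1 / 12) * ((el1 x y z t) ^ 4 * (el4 x y z t)) +
    (1 / 12) * ((el1 x y z t) ^ 5 * (el3 x y z t)) := by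
  simp only [mt4, S24, el1, el2, el3, el4]
  ring

theorem mtE_5300 (x y z t : ℝ) : mt4 5 3 0 0 x y z t =
    (-1 / 3) * ((el4 x y z t) ^ 2) +
    (-7 / 12) * ((el2 x y z t) * (el3 x y z t) ^ 2) +
    (2 / 3) * ((el2 x y z t) ^ 2 * (el4 x y z t)) +
    (-1 / 6) * ((el2 x y z t) ^ 4) +
    (1 / 12) * ((el1 x y z t) * (el3 x y z t) * (el4 x y z t)) +
    (1 / 2) * ((el1 x y z t) * (el2 x y z t) ^ 2 * (el3 x y z t)) +
    (1 / 4) * ((el1 x y z t) ^ 2 * (el3 x y z t) ^ 2) +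
    (-3 / 4) * ((el1 x y z t) ^ 2 * (el2 x y z t) * (el4 x y z t)) +
    (1 / 12) * ((el1 x y z t) ^ 2 * (el2 x y z t) ^ 3) +
    (-1 / 4) * ((el1 x y z t) ^ 3 * (el2 x y z t) * (el3 x y z t)) +
    (1 / 4) * ((el1 x y z t) ^ 4 * (el4 x y z t)) := by
  simp only [mt4, S24, el1, el2, el3, el4]
  ring

theorem mtE_5210 (x y z t : ℝ) : mt4 5 2 1 0 x y z t =
    (1 / 3) * ((el4 x y z t) ^ 2) +
    (5 / 24) * ((el2 x y z t) * (el3 x y z t) ^ 2) +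
    (-1 / 6) * ((el2 x y z t) ^ 2 * (el4 x y z t)) +
    (-5 / 12) * ((el1 x y z t) * (el3 x y z t) * (el4 x y z t)) +
    (-1 / 8) * ((el1 x y z t) * (el2 x y z t) ^ 2 * (el3 x y z t)) +
    (-1 / 24) * ((el1 x y z t) ^ 2 * (el3 x y z t) ^ 2) +
    (11 / 24) * ((el1 x y z t) ^ 2 * (el2 x y z t) * (el4 x y z t)) +
    (1 / 24) * ((el1 x y z t) ^ 3 * (el2 x y z t) * (el3 x y z t)) +
    (-1 / 8) * ((el1 x y z t) ^ 4 * (el4 x y z t)) := by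
  simp only [mt4, S24, el1, el2, el3, el4]
  ring

theorem mtE_5111 (x y z t : ℝ) : mt4 5 1 1 1 x y z t =
    (-1) * ((el4 x y z t) ^ 2) +
    (1 / 2) * ((el2 x y z t) ^ 2 * (el4 x y z t)) +
    (1) * ((el1 x y z t) * (el3 x y z t) * (el4 x y z t)) +
    (-1) * ((el1 x y z t) ^ 2 * (el2 x y z t) * (el4 x y z t)) +
    (1 / 4) * ((el1 x y z t) ^ 4 * (el4 x y z t)) := by
  simp only [mt4, S24, el1, el2, el3, el4]
  ring

theorem mtE_4400 (x y z t : ℝ) : mt4 4 4 0 0 x y z t =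
    (1) * ((el4 x y z t) ^ 2) +
    (2 / 3) * ((el2 x y z t) * (el3 x y z t) ^ 2) +
    (-2 / 3) * ((el2 x y z t) ^ 2 * (el4 x y z t)) +
    (1 / 6) * ((el2 x y z t) ^ 4) +
    (-4 / 3) * ((el1 x y z t) * (el3 x y z t) * (el4 x y z t)) +
    (-2 / 3) * ((el1 x y z t) * (el2 x y z t) ^ 2 * (el3 x y z t)) +
    (1 / 3) * ((el1 x y z t) ^ 2 * (el3 x y z t) ^ 2) +
    (2 / 3) * ((el1 x y z t) ^ 2 * (el2 x y z t) * (el4 x y z t)) := by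
  simp only [mt4, S24, el1, el2, el3, el4]
  ring

theorem mtE_4310 (x y z t : ℝ) : mt4 4 3 1 0 x y z t =
    (-1 / 3) * ((el4 x y z t) ^ 2) +
    (-1 / 24) * ((el2 x y z t) * (el3 x y z t) ^ 2) +
    (5 / 12) * ((el1 x y z t) * (el3 x y z t) * (el4 x y z t)) +
    (1 / 24) * ((el1 x y z t) * (el2 x y z t) ^ 2 * (el3 x y z t)) +
    (-1 / 12) * ((el1 x y z t) ^ 2 * (el3 x y z t) ^ 2) +
    (-1 / 24) * ((el1 x y z t) ^ 2 * (el2 x y z t) * (el4 x y z t)) := by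
  simp only [mt4, S24, el1, el2, el3, el4]
  ring

theorem mtE_4220 (x y z t : ℝ) : mt4 4 2 2 0 x y z t =
    (-1 / 3) * ((el4 x y z t) ^ 2) +
    (-1 / 6) * ((el2 x y z t) * (el3 x y z t) ^ 2) +
    (1 / 3) * ((el2 x y z t) ^ 2 * (el4 x y z t)) +
    (1 / 12) * ((el1 x y z t) ^ 2 * (el3 x y z t) ^ 2) +
    (-1 / 6) * ((el1 x y z t) ^ 2 * (el2 x y z t) * (el4 x y z t)) := by
  simp only [mt4, S24, el1, el2, el3, el4]
  ring

theorem mtE_4211 (x y z t : ℝ) : mt4 4 2 1 1 x y z t =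
    (1 / 3) * ((el4 x y z t) ^ 2) +
    (-1 / 6) * ((el2 x y z t) ^ 2 * (el4 x y z t)) +
    (-1 / 12) * ((el1 x y z t) * (el3 x y z t) * (el4 x y z t)) +
    (1 / 12) * ((el1 x y z t) ^ 2 * (el2 x y z t) * (el4 x y z t)) := by
  simp only [mt4, S24, el1, el2, el3, el4]
  ring

theorem mtE_3320 (x y z t : ℝ) : mt4 3 3 2 0 x y z t =
    (1 / 3) * ((el4 x y z t) ^ 2) +
    (1 / 12) * ((el2 x y z t) * (el3 x y z t) ^ 2) +
    (-1 / 6) * ((el2 x y z t) ^ 2 * (el4 x y z t)) +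
    (-1 / 12) * ((el1 x y z t) * (el3 x y z t) * (el4 x y z t)) := by
  simp only [mt4, S24, el1, el2, el3, el4]
  ring

theorem mtE_3311 (x y z t : ℝ) : mt4 3 3 1 1 x y z t =
    (1 / 3) * ((el4 x y z t) ^ 2) +
    (1 / 6) * ((el2 x y z t) ^ 2 * (el4 x y z t)) +
    (-1 / 3) * ((el1 x y z t) * (el3 x y z t) * (el4 x y z t)) := by
  simp only [mt4, S24, el1, el2, el3, el4]
  ring

theorem mtE_3221 (x y z t : ℝ) : mt4 3 2 2 1 x y z t =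
    (-1 / 3) * ((el4 x y z t) ^ 2) +
    (1 / 12) * ((el1 x y z t) * (el3 x y z t) * (el4 x y z t)) := by
  simp only [mt4, S24, el1, el2, el3, el4]
  ring

theorem mtE_2222 (x y z t : ℝ) : mt4 2 2 2 2 x y z t =
    (1) * ((el4 x y z t) ^ 2) := by
  simp only [mt4, S24, el1, el2, el3, el4]
  ring

end Vale.Agent.P154
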