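import Vale.Agent.P154.Bern4b

/-!
# Data of the four state certificate (generated)
-/

namespace Vale.Agent.P154.Q4C

open Vale.Agent.P154

/-- coefficients of the minorant in the monomial means (closure inequality) -/
def LT2 : LM :=
  [[((2, 2, 2, 2), -1800915156703641600),
   ((3, 2, 2, 1), -9710725081595904000),
   ((3, 3, 1, 1), -1953176070861619200),
   ((3, 3, 2, 0), -231593632962969600),
   ((4, 2, 1, 1), -2438100742569984000),
   ((4, 2, 2, 0), -53058771615744000),
   ((4, 3, 1, 0), 273741534933811200),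
   ((4, 4, 0, 0), -37413581606092800),
   ((5, 1, 1, 1), -158832289382400000),
   ((5, 2, 1, 0), 99520008840806400),
   ((5, 3, 0, 0), -52272237536870400),
   ((6, 1, 1, 0), 3715930836172800),
   ((6, 2, 0, 0), -15333976807833600),
   ((7, 1, 0, 0), -464762437632000),
   ((8, 0, 0, 0), 3519479808000)],
  [((2, 2, 2, 1), 1720688982058598400),
   ((3, 2, 1, 1), 2205850945270579200),
   ((3, 2, 2, 0), -64876412967321600),
   ((3, 3, 1, 0), -83244369759436800),
   ((4, 1, 1, 1), 204860887754342400),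
   ((4, 2, 1, 0), -88558298608435200),
   ((4, 3, 0, 0), 73099618674278400),
   ((5, 1, 1, 0), -4210730768793600),
   ((5, 2, 0, 0), 28675516642099200),
   ((6, 1, 0, 0), 1363663591833600),
   ((7, 0, 0, 0), -13035877171200)],
  [((2, 2, 1, 1), -335242613514240000),
   ((2, 2, 2, 0), 8180303369011200),
   ((3, 1, 1, 1), -102621517833830400),
   ((3, 2, 1, 0), 10598208838041600),
   ((3, 3, 0, 0), -18995162053017600),
   ((4, 1, 1, 0), -1501212214886400),
   ((4, 2, 0, 0), -21374410346496000),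
   ((5, 1, 0, 0), -1649843085312000),
   ((6, 0, 0, 0), 20106886348800)],
  [((2, 1, 1, 1), 24496066864742400),
   ((2, 2, 1, 0), 4926494092492800),
   ((3, 1, 1, 0), 3298502570803200),
   ((3, 2, 0, 0), 7806599523532800),
   ((4, 1, 0, 0), 1047177223372800),
   ((5, 0, 0, 0), -16788728217600)],
  [((1, 1, 1, 1), -651328531660800),
   ((2, 1, 1, 0), -1367857594368000),
   ((2, 2, 0, 0), -660484023091200),
   ((3, 1, 0, 0), -364920156979200),
   ((4, 0, 0, 0), 8176354099200)],
  [((1, 1, 1, 0), 66587310489600),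
   ((2, 1, 0, 0), 65744002252800),
   ((3, 0, 0, 0), -2315464704000)],
  [((1, 1, 0, 0), -2456933990400),
   ((2, 0, 0, 0), 351616204800)],
  [((1, 0, 0, 0), -6104678400)],
  []]

/-- bilinear form of the minorant (closure inequality) -/
def LB2 : L2 :=
  [[((0, 0, 2), [[((0, 0, 2), -212273103500), ((1, 2, 0), 15898797400), ((2, 0, 1), 96937545600), ((4, 0, 0), -11462738300)], [((0, 1, 1), 503273167200), ((2, 1, 0), -110910085200)], [((0, 2, 0), -219611809800), ((1, 0, 1), -103741043400), ((3, 0, 0), 25122373200)], [((1, 1, 0), 38055012800)], [((0, 0, 1), 53999445600), ((2, 0, 0), -15998155200)], [((0, 1, 0), 5312833200)], [], [], []]),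
   ((1, 2, 0), [[((0, 0, 2), 15898797400), ((1, 2, 0), -124649401625), ((2, 0, 1), 11401863375), ((4, 0, 0), 741559700)], [((0, 1, 1), 18664650000), ((2, 1, 0), -27663212100)], [((0, 2, 0), 226879938675), ((1, 0, 1), -26838666825), ((3, 0, 0), -3169668600)], [((1, 1, 0), 50487695000)], [((0, 0, 1), 7967378700), ((2, 0, 0), 2512048950)], [((0, 1, 0), -27959361300)], [((1, 0, 0), -3470284350)], [], []]),
   ((2, 0, 1), [[((0, 0, 2), 96937545600), ((1, 2, 0), 11401863375), ((2, 0, 1), -56559427425), ((4, 0, 0), 7681360300)], [((0, 1, 1), -229221730800), ((2, 1, 0), 71063043000)], [((0, 2, 0), 63418354875), ((1, 0, 1), 55029468675), ((3, 0, 0), -16972739100)], [((1, 1, 0), -22214888400)], [((0, 0, 1), -28541502000), ((2, 0, 0), 11053931850)], [((0, 1, 0), -1609057800)], [((1, 0, 0), 221368050)], [], []]),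
   ((4, 0, 0), [[((0, 0, 2), -11462738300), ((1, 2, 0), 741559700), ((2, 0, 1), 7681360300), ((4, 0, 0), -1247576850)], [((0, 1, 1), 25122373200), ((2, 1, 0), -9930174750)], [((0, 2, 0), -4858989750), ((1, 0, 1), -7042564350), ((3, 0, 0), 2750295600)], [((1, 1, 0), 2631011850)], [((0, 0, 1), 3672758700), ((2, 0, 0), -1792739400)], [], [((1, 0, 0), -59242700)], [], []])],
  [((0, 1, 1), [[((0, 0, 2), 503273167200), ((1, 2, 0), 18664650000), ((2, 0, 1), -229221730800), ((4, 0, 0), 25122373200)], [((0, 1, 1), -1097920318800), ((2, 1, 0), 249281342400)], [((0, 2, 0), -1762822800), ((1, 0, 1), 233261946000), ((3, 0, 0), -53825764800)], [((1, 1, 0), 45180528000)], [((0, 0, 1), -130347072000), ((2, 0, 0), 33851718000)], [((0, 1, 0), -96327068400)], [((1, 0, 0), 5529600000)], [], []]),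
   ((2, 1, 0), [[((0, 0, 2), -110910085200), ((1, 2, 0), -27663212100), ((2, 0, 1), 71063043000), ((4, 0, 0), -9930174750)], [((0, 1, 1), 249281342400), ((2, 1, 0), -97626315000)], [((0, 2, 0), -58119511500), ((1, 0, 1), -38048084700), ((3, 0, 0), 24734347950)], [((1, 1, 0), -52098927000)], [((0, 0, 1), 27594435300), ((2, 0, 0), -18276006450)], [((0, 1, 0), 56989045800)], [((1, 0, 0), 2501777250)], [], []])],
  [((0, 2, 0), [[((0, 0, 2), -219611809800), ((1, 2, 0), 226879938675), ((2, 0, 1), 63418354875), ((4, 0, 0), -4858989750)], [((0, 1, 1), -1762822800), ((2, 1, 0), -58119511500)], [((0, 2, 0), 614159805150), ((1, 0, 1), 33364192950), ((3, 0, 0), 5533746300)], [((1, 1, 0), -230433060600)], [((0, 0, 1), 12485396700), ((2, 0, 0), -6863097600)], [((0, 1, 0), 220144464900)], [((1, 0, 0), -17445888000)], [], [((0, 0, 0), -414720000)]]),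
   ((1, 0, 1), [[((0, 0, 2), -103741043400), ((1, 2, 0), -26838666825), ((2, 0, 1), 55029468675), ((4, 0, 0), -7042564350)], [((0, 1, 1), 233261946000), ((2, 1, 0), -38048084700)], [((0, 2, 0), 33364192950), ((1, 0, 1), -105802948050), ((3, 0, 0), 16488196200)], [((1, 1, 0), 61499288400)], [((0, 0, 1), 51412938300), ((2, 0, 0), -9468251100)], [((0, 1, 0), -28552443300)], [((1, 0, 0), -2379042900)], [], [((0, 0, 0), -138240000)]]),
   ((3, 0, 0), [[((0, 0, 2), 25122373200), ((1, 2, 0), -3169668600), ((2, 0, 1), -16972739100), ((4, 0, 0), 2750295600)], [((0, 1, 1), -53825764800), ((2, 1, 0), 24734347950)], [((0, 2, 0), 5533746300), ((1, 0, 1), 16488196200), ((3, 0, 0), -7820527950)], [((1, 1, 0), -1793314650)], [((0, 0, 1), -9893977200), ((2, 0, 0), 6264138900)], [((0, 1, 0), -3704832000)], [((1, 0, 0), -811620000)], [], [((0, 0, 0), 27648000)]])],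
  [((1, 1, 0), [[((0, 0, 2), 38055012800), ((1, 2, 0), 50487695000), ((2, 0, 1), -22214888400), ((4, 0, 0), 2631011850)], [((0, 1, 1), 45180528000), ((2, 1, 0), -52098927000)], [((0, 2, 0), -230433060600), ((1, 0, 1), 61499288400), ((3, 0, 0), -1793314650)], [((1, 1, 0), 43590526000)], [((0, 0, 1), -37493456400), ((2, 0, 0), -5629923450)], [((0, 1, 0), -56563363800)], [((1, 0, 0), 11987757450)], [], [((0, 0, 0), 1202688000)]])],
  [((0, 0, 1), [[((0, 0, 2), 53999445600), ((1, 2, 0), 7967378700), ((2, 0, 1), -28541502000), ((4, 0, 0), 3672758700)], [((0, 1, 1), -130347072000), ((2, 1, 0), 27594435300)], [((0, 2, 0), 12485396700), ((1, 0, 1), 51412938300), ((3, 0, 0), -9893977200)], [((1, 1, 0), -37493456400)], [((0, 0, 1), -46168111800), ((2, 0, 0), 12879387000)], [((0, 1, 0), 41033403900)], [((1, 0, 0), -2617344000)], [], [((0, 0, 0), -746496000)]]),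
   ((2, 0, 0), [[((0, 0, 2), -15998155200), ((1, 2, 0), 2512048950), ((2, 0, 1), 11053931850), ((4, 0, 0), -1792739400)], [((0, 1, 1), 33851718000), ((2, 1, 0), -18276006450)], [((0, 2, 0), -6863097600), ((1, 0, 1), -9468251100), ((3, 0, 0), 6264138900)], [((1, 1, 0), -5629923450)], [((0, 0, 1), 12879387000), ((2, 0, 0), -7229433150)], [((0, 1, 0), 8197632000)], [((1, 0, 0), 1491409800)], [], [((0, 0, 0), -400896000)]])],
  [((0, 1, 0), [[((0, 0, 2), 5312833200), ((1, 2, 0), -27959361300), ((2, 0, 1), -1609057800)], [((0, 1, 1), -96327068400), ((2, 1, 0), 56989045800)], [((0, 2, 0), 220144464900), ((1, 0, 1), -28552443300), ((3, 0, 0), -3704832000)], [((1, 1, 0), -56563363800)], [((0, 0, 1), 41033403900), ((2, 0, 0), 8197632000)], [((0, 1, 0), 1328027400)], [((1, 0, 0), -12925440000)], [], [((0, 0, 0), 4147200000)]])],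
  [((1, 0, 0), [[((1, 2, 0), -3470284350), ((2, 0, 1), 221368050), ((4, 0, 0), -59242700)], [((0, 1, 1), 5529600000), ((2, 1, 0), 2501777250)], [((0, 2, 0), -17445888000), ((1, 0, 1), -2379042900), ((3, 0, 0), -811620000)], [((1, 1, 0), 11987757450)], [((0, 0, 1), -2617344000), ((2, 0, 0), 1491409800)], [((0, 1, 0), -12925440000)], [((1, 0, 0), 725784750)], [], []])],
  [],
  [((0, 0, 0), [[], [], [((0, 2, 0), -414720000), ((1, 0, 1), -138240000), ((3, 0, 0), 27648000)], [((1, 1, 0), 1202688000)], [((0, 0, 1), -746496000), ((2, 0, 0), -400896000)], [((0, 1, 0), 4147200000)], [], [], []])]]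

/-- coefficients of the minorant in the monomial means (gain inequality) -/
def LT1 : LM :=
  [[((2, 2, 2, 1), -95551488000000),
   ((3, 2, 1, 1), -180486144000000),
   ((3, 2, 2, 0), -84934656000000),
   ((3, 3, 1, 0), -53084160000000),
   ((4, 1, 1, 1), -26542080000000),
   ((4, 2, 1, 0), -74317824000000),
   ((4, 3, 0, 0), -10616832000000),
   ((5, 1, 1, 0), -11678515200000),
   ((5, 2, 0, 0), -5308416000000),
   ((6, 1, 0, 0), -1061683200000)],
  [((2, 2, 1, 1), 82811289600000),
   ((2, 2, 2, 0), 25480396800000),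
   ((3, 1, 1, 1), 33973862400000),
   ((3, 2, 1, 0), 93428121600000),
   ((3, 3, 0, 0), 6370099200000),
   ((4, 1, 1, 0), 19110297600000),
   ((4, 2, 0, 0), 8493465600000),
   ((5, 1, 0, 0), 2123366400000)],
  [((2, 1, 1, 1), -15527116800000),
   ((2, 2, 1, 0), -20702822400000),
   ((3, 1, 1, 0), -12076646400000),
   ((3, 2, 0, 0), -5175705600000),
   ((4, 1, 0, 0), -1725235200000)],
  [((1, 1, 1, 1), 729907200000),
   ((2, 1, 1, 0), 3649536000000),
   ((2, 2, 0, 0), 729907200000),
   ((3, 1, 0, 0), 729907200000)],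
  [((1, 1, 1, 0), -170035200000),
   ((2, 1, 0, 0), -170035200000)],
  [((1, 1, 0, 0), 10368000000)],
  [((1, 0, 0, 0), -129600000)],
  []]

/-- bilinear form of the minorant (gain inequality) -/
def LB1 : L2 :=
  [[((0, 1, 1), [[((0, 1, 1), -192600000), ((2, 1, 0), 55800000)], [((0, 2, 0), 75600000), ((1, 0, 1), 5400000), ((3, 0, 0), -1800000)], [], [], [], [], [], []]),
   ((2, 1, 0), [[((0, 1, 1), 55800000), ((2, 1, 0), -23400000)], [((0, 2, 0), -10800000), ((1, 0, 1), 1800000), ((3, 0, 0), 900000)], [((1, 1, 0), 4500000)], [], [], [], [], []])],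
  [((0, 2, 0), [[((0, 1, 1), 75600000), ((2, 1, 0), -10800000)], [((0, 2, 0), 283500000), ((1, 0, 1), -40500000), ((3, 0, 0), 5400000)], [((1, 1, 0), -64800000)], [], [], [], [], []]),
   ((1, 0, 1), [[((0, 1, 1), 5400000), ((2, 1, 0), 1800000)], [((0, 2, 0), -40500000), ((1, 0, 1), 17550000), ((3, 0, 0), -4050000)], [((1, 1, 0), -10800000)], [((0, 0, 1), -6750000), ((2, 0, 0), 1350000)], [], [], [], []]),
   ((3, 0, 0), [[((0, 1, 1), -1800000), ((2, 1, 0), 900000)], [((0, 2, 0), 5400000), ((1, 0, 1), -4050000), ((3, 0, 0), 1125000)], [], [((0, 0, 1), 1350000), ((2, 0, 0), -675000)], [], [], [], []])],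
  [((1, 1, 0), [[((2, 1, 0), 4500000)], [((0, 2, 0), -64800000), ((1, 0, 1), -10800000)], [((1, 1, 0), 9900000)], [((0, 0, 1), 14400000), ((2, 0, 0), 3600000)], [((0, 1, 0), 16200000)], [], [], []])],
  [((0, 0, 1), [[], [((1, 0, 1), -6750000), ((3, 0, 0), 1350000)], [((1, 1, 0), 14400000)], [((0, 0, 1), 13050000), ((2, 0, 0), -4050000)], [((0, 1, 0), -21600000)], [], [], []]),
   ((2, 0, 0), [[], [((1, 0, 1), 1350000), ((3, 0, 0), -675000)], [((1, 1, 0), 3600000)], [((0, 0, 1), -4050000), ((2, 0, 0), 1125000)], [], [((1, 0, 0), -900000)], [], []])],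
  [((0, 1, 0), [[], [], [((1, 1, 0), 16200000)], [((0, 0, 1), -21600000)], [((0, 1, 0), -16200000)], [((1, 0, 0), 10800000)], [], []])],
  [((1, 0, 0), [[], [], [], [((2, 0, 0), -900000)], [((0, 1, 0), 10800000)], [], [], [((0, 0, 0), -2700000)]])],
  [],
  [((0, 0, 0), [[], [], [], [], [], [((1, 0, 0), -2700000)], [], []])]]

/-- the potential, times 300 -/
def Lpsi : L1 :=
  [[((0, 2, 0), -30), ((1, 0, 1), -10), ((3, 0, 0), 2)], [((1, 1, 0), 87)], [((0, 0, 1), -54), ((2, 0, 0), -29)], [((0, 1, 0), 300)], [], [], []]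

/-- the multiplier of the closure inequality, times 27000 -/
def LBm : L1 :=
  [[((0, 2, 0), 814941), ((1, 0, 1), -209070), ((3, 0, 0), 50711)], [((1, 1, 0), -273042)], [((0, 0, 1), 220401), ((2, 0, 0), -879)], [((0, 1, 0), -1809)], [((1, 0, 0), -53766)], [], [((0, 0, 0), 27000)]]

/-- the multiplier of the gain inequality, times 27000 -/
def LAm : L1 :=
  [[((0, 2, 0), -6615), ((1, 0, 1), -15516), ((3, 0, 0), 4361)], [((1, 1, 0), 19791)], [((0, 0, 1), -19089), ((2, 0, 0), -5946)], [((0, 1, 0), -27000)], [((1, 0, 0), 36000)], [], []]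

/-- constant one -/
def Lone : L1 := [[((0, 0, 0), 1)]]
/-- three times the quadratic invariant -/
def Lr : L1 := [[((1, 0, 0), 1)], [], []]
/-- minus three times the quadratic invariant -/
def Lmr : L1 := [[((1, 0, 0), -1)], [], []]
/-- nine times the square of the quadratic invariant -/
def Lr2 : L1 := [[((2, 0, 0), 1)], [], [], [], []]

/-- noise, times 600 -/
def LE0 : L1 :=
  [[((0, 2, 0), 60), ((1, 0, 1), 20), ((3, 0, 0), -4)], [((1, 1, 0), -174)], [((0, 0, 1), 108), ((2, 0, 0), 58)], [], [], [], []]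

/-- noise, times 600 -/
def LE1 : L1 :=
  [[((0, 2, 0), 90), ((1, 0, 1), 30), ((3, 0, 0), -6)], [((1, 1, 0), -261)], [((0, 0, 1), 108), ((2, 0, 0), 58)], [], [], [], []]

/-- noise, times 600 -/
def LE2 : L1 :=
  [[((0, 2, 0), 180), ((1, 0, 1), 60), ((3, 0, 0), -12)], [((1, 1, 0), -348)], [((0, 0, 1), 108), ((2, 0, 0), 58)], [], [], [], []]

/-- padding -/
def pad {α : Type} (m : ℕ) (L : List (List α)) : List (List α) := List.replicate m [] ++ L

/-- padding of a bilinear form -/
def pad2 (m : ℕ) (L : L2) : L2 := pad m (L.map fun l => l.map fun e => (e.1, pad m e.2))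

/-- right side of the closure inequality -/
def Q2 : LQ := [(512, pad 4 LBm, pad 4 Lpsi), (512, pad 4 Lpsi, pad 4 LBm)]

/-- right side of the gain inequality -/
def Q1 : LQ := [(-2700000, pad 8 Lr, pad 10 Lone), (-2700000, pad 10 Lone, pad 8 Lr),
  (1, pad 4 LAm, pad 4 Lpsi), (1, pad 4 Lpsi, pad 4 LAm),
  (1500, pad 6 Lr2, pad 8 Lr), (1500, pad 8 Lr, pad 6 Lr2)]

/-- scale -/
def kap2 : ℤ := 4147200000
/-- scale -/
def kap1 : ℤ := 8100000

end Vale.Agent.P154.Q4C
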