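import Vale.Agent.P154.Q4G

/-!
# Four states: the functions of the certificate
-/

namespace Vale.Agent.P154.Q4G

open PE Finset Vale.Agent.P154.Up

/-- the test function -/
noncomputable def LL (p : Fin 4 → ℝ) : ℝ :=
  iv3 p - 19 / 20 * iv2 p ^ 2 + 51 / 100 * (iv2 p * iv3 p) - 21 / 200 * iv4 p

/-- multiplier of the first inequality -/
noncomputable def AA (p : Fin 4 → ℝ) : ℝ :=
  4 * iv2 p - iv3 p - iv4 p + 49 / 10 * (iv2 p * iv3 p) - 14 / 5 * iv2 p ^ 2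
    + 79 / 10 * iv2 p ^ 3 - 16 / 5 * (iv2 p * iv4 p) - 1 / 5 * iv3 p ^ 2

/-- multiplier of the second inequality -/
noncomputable def BB (p : Fin 4 → ℝ) : ℝ :=
  1 + (39 / 20) * (iv4 p) + (101 / 4) * (iv4 p ^ 2) + (11 / 10) * (iv3 p) + (-137 / 2) * (iv3 p * iv4 p) + (324 / 5) * (iv3 p ^ 2) + (-127 / 20) * (iv2 p) + (-19 / 20) * (iv2 p * iv4 p) + (-953 / 20) * (iv2 p * iv3 p) + (-233 / 5) * (iv2 p * iv3 p ^ 2) + (223 / 10) * (iv2 p ^ 2) + (-761 / 10) * (iv2 p ^ 2 * iv4 p) + (399 / 2) * (iv2 p ^ 2 * iv3 p) + (-629 / 20) * (iv2 p ^ 3) + (939 / 20) * (iv2 p ^ 4)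

/-- coefficients of the majorant -/
def LI : TL := [((1, 0, 0, 0), 204800),
  ((1, 1, 0, 0), -1003520),
  ((1, 1, 1, 0), 1003776),
  ((2, 1, 0, 0), 1003776),
  ((1, 1, 1, 1), -261376),
  ((2, 1, 1, 0), -1306880),
  ((2, 2, 0, 0), -261376),
  ((3, 1, 0, 0), -261376),
  ((2, 1, 1, 1), 334944),
  ((2, 2, 1, 0), 446592),
  ((3, 1, 1, 0), 260512),
  ((3, 2, 0, 0), 111648),
  ((4, 1, 0, 0), 37216),
  ((2, 2, 1, 1), -106704),
  ((2, 2, 2, 0), -32832),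
  ((3, 1, 1, 1), -43776),
  ((3, 2, 1, 0), -120384),
  ((3, 3, 0, 0), -8208),
  ((4, 1, 1, 0), -24624),
  ((4, 2, 0, 0), -10944),
  ((5, 1, 0, 0), -2736),
  ((2, 2, 2, 1), 7290),
  ((3, 2, 1, 1), 13770),
  ((3, 2, 2, 0), 6480),
  ((3, 3, 1, 0), 4050),
  ((4, 1, 1, 1), 2025),
  ((4, 2, 1, 0), 5670),
  ((4, 3, 0, 0), 810),
  ((5, 1, 1, 0), 891),
  ((5, 2, 0, 0), 405),
  ((6, 1, 0, 0), 81)]

/-- coefficients of the minorant -/
def LII : TL := [((0, 0, 0, 0), -86973087744),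
  ((1, 0, 0, 0), 845571686400),
  ((1, 1, 0, 0), -5241487491072),
  ((2, 0, 0, 0), -459477614592),
  ((1, 1, 1, 0), 6270442536960),
  ((2, 1, 0, 0), 7889146085376),
  ((3, 0, 0, 0), 194594734080),
  ((1, 1, 1, 1), -4141612400640),
  ((2, 1, 1, 0), -4394211606528),
  ((2, 2, 0, 0), -3523631972352),
  ((3, 1, 0, 0), -2785000292352),
  ((4, 0, 0, 0), -50741968896),
  ((2, 1, 1, 1), 8543041241088),
  ((2, 2, 1, 0), -6416578338816),
  ((3, 1, 1, 0), -1218439593984),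
  ((3, 2, 0, 0), 2407395385344),
  ((4, 1, 0, 0), 548070027264),
  ((5, 0, 0, 0), 8436879360),
  ((2, 2, 1, 1), -5421687590400),
  ((2, 2, 2, 0), 3788608693760),
  ((3, 1, 1, 1), -2418525485056),
  ((3, 2, 1, 0), 8577827985408),
  ((3, 3, 0, 0), -336043474432),
  ((4, 1, 1, 0), 647272539648),
  ((4, 2, 0, 0), -400519703808),
  ((5, 1, 0, 0), -64413577728),
  ((6, 0, 0, 0), -894894336),
  ((2, 2, 2, 1), 1433803746080),
  ((3, 2, 1, 1), 2151931937088),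
  ((3, 2, 2, 0), -4041748909536),
  ((3, 3, 1, 0), -1735055614016),
  ((4, 1, 1, 1), 465641300960),
  ((4, 2, 1, 0), -1943184300768),
  ((4, 3, 0, 0), 75090062512),
  ((5, 1, 1, 0), -101258517216),
  ((5, 2, 0, 0), 33309368400),
  ((6, 1, 0, 0), 4536730224),
  ((7, 0, 0, 0), 58426416),
  ((2, 2, 2, 2), -149581800304),
  ((3, 2, 2, 1), -604886840832),
  ((3, 3, 1, 1), -96479212928),
  ((3, 3, 2, 0), 903284392192),
  ((4, 2, 1, 1), -262769164416),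
  ((4, 2, 2, 0), 548571075744),
  ((4, 3, 1, 0), 508490770432),
  ((4, 4, 0, 0), -1631659688),
  ((5, 1, 1, 1), -52922291584),
  ((5, 2, 1, 0), 192153832704),
  ((5, 3, 0, 0), -2664008960),
  ((6, 1, 1, 0), 6822423168),
  ((6, 2, 0, 0), -1202290080),
  ((7, 1, 0, 0), -176332032),
  ((8, 0, 0, 0), -2130408),
  ((3, 2, 2, 2), 48028530792),
  ((3, 3, 2, 1), 32872446624),
  ((3, 3, 3, 0), -31686126144),
  ((4, 2, 2, 1), 34908719604),
  ((4, 3, 1, 1), 6315161568),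
  ((4, 3, 2, 0), -120449740920),
  ((4, 4, 1, 0), -18743621946),
  ((5, 2, 1, 1), 14858147856),
  ((5, 2, 2, 0), -25966121772),
  ((5, 3, 1, 0), -25494752256),
  ((5, 4, 0, 0), -116065290),
  ((6, 1, 1, 1), 2454572400),
  ((6, 2, 1, 0), -7094733096),
  ((6, 3, 0, 0), -29367588),
  ((7, 1, 1, 0), -168975168),
  ((7, 2, 0, 0), 9371004),
  ((8, 1, 0, 0), 2826225),
  ((9, 0, 0, 0), 33003)]

/-- the quotient of the second inequality -/
noncomputable def SS (D u v w : ℝ) : ℝ :=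
    ((9 / 100) + (-9 / 20) * D ^ 1 + (1459 / 1600) * D ^ 2 + (-1517 / 1600) * D ^ 3 + (14141 / 25600) * D ^ 4 + (-18649 / 102400) * D ^ 5 + (12961 / 409600) * D ^ 6 + (-3667 / 1638400) * D ^ 7) +
    ((21 / 800) * D ^ 1 + (21 / 400) * D ^ 2 + (63 / 800) * D ^ 3 + (31991 / 6400) * D ^ 4 + (-1052617 / 102400) * D ^ 5 + (2888843 / 409600) * D ^ 6 + (-26197 / 16384) * D ^ 7) * (w) +
    ((13 / 20) * D ^ 1 + (13 / 10) * D ^ 2 + (9667 / 3200) * D ^ 3 + (-149049 / 12800) * D ^ 4 + (95371 / 10240) * D ^ 5 + (-566767 / 204800) * D ^ 6 + (43901 / 163840) * D ^ 7) * (v) +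
    ((16079 / 819200) * D ^ 7) * (v * w) +
    ((106593 / 409600) * D ^ 6 + (-29363 / 204800) * D ^ 7) * (v ^ 2) +
    ((-49 / 200) * D ^ 1 + (1403 / 400) * D ^ 2 + (-17417 / 3200) * D ^ 3 + (92711 / 25600) * D ^ 4 + (-26053 / 20480) * D ^ 5 + (23811 / 102400) * D ^ 6 + (-26877 / 1638400) * D ^ 7) * (u) +
    ((-205977 / 409600) * D ^ 6 + (434353 / 1638400) * D ^ 7) * (u * w) +
    ((-51 / 200) * D ^ 1 + (-51 / 100) * D ^ 2 + (-153 / 200) * D ^ 3 + (-51 / 50) * D ^ 4 + (334553 / 51200) * D ^ 5 + (-434549 / 81920) * D ^ 6 + (2013383 / 1638400) * D ^ 7) * (u * v) +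
    ((-337 / 800) * D ^ 1 + (-337 / 400) * D ^ 2 + (-1011 / 800) * D ^ 3 + (49231 / 12800) * D ^ 4 + (-214257 / 102400) * D ^ 5 + (1699 / 6400) * D ^ 6 + (40309 / 1638400) * D ^ 7) * (u ^ 2) +
    ((1637 / 1638400) * D ^ 7) * (u ^ 2 * v) +
    ((-41921 / 409600) * D ^ 6 + (38697 / 819200) * D ^ 7) * (u ^ 3)

/-- the polynomial of the first inequality -/
noncomputable def tauI (D : ℝ) : ℝ :=
  49 / 10 - 3921 / 400 * D + 1021 / 100 * D ^ 2 - 1163 / 200 * D ^ 3 + 171 / 100 * D ^ 4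
    - 81 / 400 * D ^ 5

theorem tauI_le (D : ℝ) : D * tauI D ≤ 1 := by
  have h : 1 - D * tauI D = ((1 - D) ^ 2) ^ 2 * (1 - 9 / 20 * D) ^ 2 := by
    unfold tauI; ring
  have h2 : 0 ≤ ((1 - D) ^ 2) ^ 2 * (1 - 9 / 20 * D) ^ 2 := by positivity
  linarith

theorem LL_perm (p : Fin 4 → ℝ) (σ : Equiv.Perm (Fin 4)) : LL (fun i => p (σ i)) = LL p := by
  unfold LL; rw [iv2_perm, iv3_perm, iv4_perm]

theorem AA_perm (p : Fin 4 → ℝ) (σ : Equiv.Perm (Fin 4)) : AA (fun i => p (σ i)) = AA p := by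
  unfold AA; rw [iv2_perm, iv3_perm, iv4_perm]

theorem BB_perm (p : Fin 4 → ℝ) (σ : Equiv.Perm (Fin 4)) : BB (fun i => p (σ i)) = BB p := by
  unfold BB; rw [iv2_perm, iv3_perm, iv4_perm]

theorem g2_perm (p : Fin 4 → ℝ) (σ : Equiv.Perm (Fin 4)) : g2 (fun i => p (σ i)) = g2 p := by
  unfold g2; rw [iv2_perm]

theorem g3_perm (p : Fin 4 → ℝ) (σ : Equiv.Perm (Fin 4)) : g3 (fun i => p (σ i)) = g3 p := by
  unfold g3; rw [iv2_perm, iv3_perm]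

theorem g4_perm (p : Fin 4 → ℝ) (σ : Equiv.Perm (Fin 4)) : g4 (fun i => p (σ i)) = g4 p := by
  unfold g4; rw [iv2_perm, iv3_perm, iv4_perm]

end Vale.Agent.P154.Q4G
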