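import Vale.Agent.P154.Kron

/-!
# Certificate for four states (generated): first inequality
-/

namespace Vale.Agent.P154.Q4I

open PE

def a : PE := X 3
def b : PE := X 4
def c : PE := X 5
def p : PE := X 0
def q : PE := X 1
def r : PE := X 2
def A0 : PE := a + b + c + 1
def A1 : PE := b + c + 1
def A2 : PE := c + 1
def B0 : PE := p + q + r + 1
def B1 : PE := q + r + 1
def B2 : PE := r + 1
def e1 : PE := a + 2*b + 3*c + 4
def e2 : PE := A0*A1 + A0*A2 + A1*A2 + A0 + A1 + A2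
def e3 : PE := A0*A1*A2 + A0*A1 + A0*A2 + A1*A2
def e4 : PE := A0*A1*A2
def f1 : PE := p + 2*q + 3*r + 4
def f2 : PE := B0*B1 + B0*B2 + B1*B2 + B0 + B1 + B2
def f3 : PE := B0*B1*B2 + B0*B1 + B0*B2 + B1*B2
def f4 : PE := B0*B1*B2
def g0 : PE := C 107163 * (f1^9) + C (-500823) * (f1^7*f2) + C 914166 * (f1^6*f3) + C 244080 * (f1^5*f2^2) + C (-8164800) * (f1^5*f4) + C (-1069200) * (f1^4*f2*f3) + C 395136 * (f1^3*f2^3) + C 16257024 * (f1^3*f2*f4) + C 381024 * (f1^3*f3^2)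
def g1 : PE := C (-500823) * (f1^9) + C (-2328912) * (f1^7*f2) + C 29780784 * (f1^6*f3) + C 34642800 * (f1^5*f2^2) + C 236831040 * (f1^5*f4) + C (-273749760) * (f1^4*f2*f3) + C (-70726656) * (f1^3*f2^3) + C (-461389824) * (f1^3*f2*f4) + C (-210034944) * (f1^3*f3^2) + C 627056640 * (f1^2*f2^2*f3) + C (-627056640) * (f1^2*f3*f4)
def g2 : PE := C 914166 * (f1^9) + C 29780784 * (f1^7*f2) + C 181656000 * (f1^6*f3) + C (-256290912) * (f1^5*f2^2) + C 928492416 * (f1^5*f4) + C (-377305344) * (f1^4*f2*f3) + C 424857600 * (f1^3*f2^3) + C (-5052948480) * (f1^3*f2*f4) + C (-342144000) * (f1^3*f3^2) + C 89579520 * (f1^2*f2^2*f3) + C 13795246080 * (f1^2*f3*f4)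
def g3 : PE := C 244080 * (f1^9) + C 34642800 * (f1^7*f2) + C (-256290912) * (f1^6*f3) + C (-274244352) * (f1^5*f2^2) + C (-1517958144) * (f1^5*f4) + C 1976576256 * (f1^4*f2*f3) + C 552552448 * (f1^3*f2^3) + C 4061233152 * (f1^3*f2*f4) + C 1339034112 * (f1^3*f3^2) + C (-4478976000) * (f1^2*f2^2*f3)
def g4 : PE := C (-8164800) * (f1^9) + C 236831040 * (f1^7*f2) + C 928492416 * (f1^6*f3) + C (-1517958144) * (f1^5*f2^2) + C (-442368) * (f1^5*f4) + C (-6077334528) * (f1^4*f2*f3) + C 3723411456 * (f1^3*f2^3) + C 9801990144 * (f1^3*f2*f4) + C 21375166464 * (f1^3*f3^2) + C (-6808043520) * (f1^2*f2^2*f3) + C (-70230343680) * (f1^2*f3*f4)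
def g5 : PE := C (-1069200) * (f1^9) + C (-273749760) * (f1^7*f2) + C (-377305344) * (f1^6*f3) + C 1976576256 * (f1^5*f2^2) + C (-6077334528) * (f1^5*f4) + C (-398020608) * (f1^4*f2*f3) + C (-3511148544) * (f1^3*f2^3) + C 27027800064 * (f1^3*f2*f4) + C (-2241478656) * (f1^3*f3^2) + C 5912248320 * (f1^2*f2^2*f3) + C (-62347345920) * (f1^2*f3*f4)
def g6 : PE := C 395136 * (f1^9) + C (-70726656) * (f1^7*f2) + C 424857600 * (f1^6*f3) + C 552552448 * (f1^5*f2^2) + C 3723411456 * (f1^5*f4) + C (-3511148544) * (f1^4*f2*f3) + C (-1114767360) * (f1^3*f2^3) + C (-12103188480) * (f1^3*f2*f4) + C (-1881169920) * (f1^3*f3^2) + C 8062156800 * (f1^2*f2^2*f3) + C 10749542400 * (f1^2*f3*f4)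
def g7 : PE := C 16257024 * (f1^9) + C (-461389824) * (f1^7*f2) + C (-5052948480) * (f1^6*f3) + C 4061233152 * (f1^5*f2^2) + C 9801990144 * (f1^5*f4) + C 27027800064 * (f1^4*f2*f3) + C (-12103188480) * (f1^3*f2^3) + C (-64975011840) * (f1^3*f2*f4) + C (-77516144640) * (f1^3*f3^2) + C 22215720960 * (f1^2*f2^2*f3) + C 289521008640 * (f1^2*f3*f4)
def g8 : PE := C 381024 * (f1^9) + C (-210034944) * (f1^7*f2) + C (-342144000) * (f1^6*f3) + C 1339034112 * (f1^5*f2^2) + C 21375166464 * (f1^5*f4) + C (-2241478656) * (f1^4*f2*f3) + C (-1881169920) * (f1^3*f2^3) + C (-77516144640) * (f1^3*f2*f4) + C (-4792504320) * (f1^3*f3^2) + C 9316270080 * (f1^2*f2^2*f3) + C 123261419520 * (f1^2*f3*f4)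
def g9 : PE := C 627056640 * (f1^7*f2) + C 89579520 * (f1^6*f3) + C (-4478976000) * (f1^5*f2^2) + C (-6808043520) * (f1^5*f4) + C 5912248320 * (f1^4*f2*f3) + C 8062156800 * (f1^3*f2^3) + C 22215720960 * (f1^3*f2*f4) + C 9316270080 * (f1^3*f3^2) + C (-24007311360) * (f1^2*f2^2*f3) + C (-24365629440) * (f1^2*f3*f4)
def g10 : PE := C (-627056640) * (f1^7*f2) + C 13795246080 * (f1^6*f3) + C (-70230343680) * (f1^5*f4) + C (-62347345920) * (f1^4*f2*f3) + C 10749542400 * (f1^3*f2^3) + C 289521008640 * (f1^3*f2*f4) + C 123261419520 * (f1^3*f3^2) + C (-24365629440) * (f1^2*f2^2*f3) + C (-613440552960) * (f1^2*f3*f4)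
/-- the polynomial -/
def F : PE := (e1^9) * g0 + (e1^7*e2) * g1 + (e1^6*e3) * g2 + (e1^5*e2^2) * g3 + (e1^5*e4) * g4 + (e1^4*e2*e3) * g5 + (e1^3*e2^3) * g6 + (e1^3*e2*e4) * g7 + (e1^3*e3^2) * g8 + (e1^2*e2^2*e3) * g9 + (e1^2*e3*e4) * g10

theorem check : kcheck 3 3 87 10 F = true := by decide +kernel

end Vale.Agent.P154.Q4I
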