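import Vale.Agent.P154.Kron

/-!
# Certificate for four states (generated): second inequality
-/

namespace Vale.Agent.P154.Q4II

open PE

def a : PE := X 3
def b : PE := X 4
def c : PE := X 5
def p : PE := X 0
def q : PE := X 1
def r : PE := X 2
def A0 : PE := a + b + c + 1
def A1 : PE := b + c + 1
def A2 : PE := c + 1
def B0 : PE := p + q + r + 1
def B1 : PE := q + r + 1
def B2 : PE := r + 1
def e1 : PE := a + 2*b + 3*c + 4
def e2 : PE := A0*A1 + A0*A2 + A1*A2 + A0 + A1 + A2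
def e3 : PE := A0*A1*A2 + A0*A1 + A0*A2 + A1*A2
def e4 : PE := A0*A1*A2
def f1 : PE := p + 2*q + 3*r + 4
def f2 : PE := B0*B1 + B0*B2 + B1*B2 + B0 + B1 + B2
def f3 : PE := B0*B1*B2 + B0*B1 + B0*B2 + B1*B2
def f4 : PE := B0*B1*B2
def g0 : PE := C 17496 * (f1^9) + C 11664 * (f1^7*f2) + C 15081552 * (f1^6*f3) + C 16079688 * (f1^5*f2^2) + C 255476592 * (f1^5*f4) + C (-188669088) * (f1^4*f2*f3) + C (-87214410) * (f1^3*f2^3) + C (-2446444296) * (f1^3*f2*f4) + C 5199228 * (f1^3*f3^2) + C 1057999590 * (f1^2*f2^2*f3) + C 2414921850 * (f1^2*f3*f4) + C 89948736 * (f1*f2^4) + C 4819176864 * (f1*f2^2*f4) + C (-1141731936) * (f1*f2*f3^2) + C (-25647075360) * (f1*f4^2) + C (-1283156640) * (f2^3*f3) + C 2566313280 * (f2*f3*f4) + C 427718880 * (f3^3)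
def g1 : PE := C 11664 * (f1^9) + C (-123984) * (f1^7*f2) + C (-516017952) * (f1^6*f3) + C (-85099518) * (f1^5*f2^2) + C (-4751776872) * (f1^5*f4) + C 4654775268 * (f1^4*f2*f3) + C 669126660 * (f1^3*f2^3) + C 20567148156 * (f1^3*f2*f4) + C 7007783742 * (f1^3*f3^2) + C (-18174293640) * (f1^2*f2^2*f3) + C 25620009480 * (f1^2*f3*f4) + C (-1147141056) * (f1*f2^4) + C (-29557977984) * (f1*f2^2*f4) + C (-13662221184) * (f1*f2*f3^2) + C 86913596160 * (f1*f4^2) + C 23757701760 * (f2^3*f3) + C (-47515403520) * (f2*f3*f4) + C (-7919233920) * (f3^3)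
def g2 : PE := C 15081552 * (f1^9) + C (-516017952) * (f1^7*f2) + C (-17318585520) * (f1^6*f3) + C 9790900326 * (f1^5*f2^2) + C (-69333160968) * (f1^5*f4) + C 155936131632 * (f1^4*f2*f3) + C (-57228687000) * (f1^3*f2^3) + C 225083717640 * (f1^3*f2*f4) + C 51094250910 * (f1^3*f3^2) + C (-387461782980) * (f1^2*f2^2*f3) + C 611080306560 * (f1^2*f3*f4) + C 98738942400 * (f1*f2^4) + C (-92007169920) * (f1*f2^2*f4) + C (-84425051520) * (f1*f2*f3^2) + C (-861161518080) * (f1*f4^2) + C 183439278720 * (f2^3*f3) + C (-808688828160) * (f2*f3*f4) + C (-208416516480) * (f3^3)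
def g3 : PE := C 16079688 * (f1^9) + C (-85099518) * (f1^7*f2) + C 9790900326 * (f1^6*f3) + C (-2194604016) * (f1^5*f2^2) + C 49227571206 * (f1^5*f4) + C (-86816264994) * (f1^4*f2*f3) + C 17674352080 * (f1^3*f2^3) + C (-179453564928) * (f1^3*f2*f4) + C (-44352469206) * (f1^3*f3^2) + C 233089036620 * (f1^2*f2^2*f3) + C (-231415922160) * (f1^2*f3*f4) + C (-34493738432) * (f1*f2^4) + C 151640787072 * (f1*f2^2*f4) + C 71084305152 * (f1*f2*f3^2) + C 314079598080 * (f1*f4^2) + C (-142600682880) * (f2^3*f3) + C 222228218880 * (f2*f3*f4) + C 26542512000 * (f3^3)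
def g4 : PE := C 255476592 * (f1^9) + C (-4751776872) * (f1^7*f2) + C (-69333160968) * (f1^6*f3) + C 49227571206 * (f1^5*f2^2) + C 170229239433 * (f1^5*f4) + C 1131365944053 * (f1^4*f2*f3) + C (-274961535930) * (f1^3*f2^3) + C (-4410249108696) * (f1^3*f2*f4) + C 1114423353873 * (f1^3*f3^2) + C (-4546984710960) * (f1^2*f2^2*f3) + C 20935382601600 * (f1^2*f3*f4) + C 504660758976 * (f1*f2^4) + C 9162830721024 * (f1*f2^2*f4) + C (-1346964319296) * (f1*f2*f3^2) + C 5786843120640 * (f1*f4^2) + C 4797900570240 * (f2^3*f3) + C (-41993659353600) * (f2*f3*f4) + C (-7707631187520) * (f3^3)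
def g5 : PE := C (-188669088) * (f1^9) + C 4654775268 * (f1^7*f2) + C 155936131632 * (f1^6*f3) + C (-86816264994) * (f1^5*f2^2) + C 1131365944053 * (f1^5*f4) + C (-1627877751327) * (f1^4*f2*f3) + C 533343896550 * (f1^3*f2^3) + C (-5777657545176) * (f1^3*f2*f4) + C (-60652943667) * (f1^3*f3^2) + C 4689450943920 * (f1^2*f2^2*f3) + C (-1288878958080) * (f1^2*f3*f4) + C (-984683582784) * (f1*f2^4) + C 7188119806464 * (f1*f2^2*f4) + C (-1929014058816) * (f1*f2*f3^2) + C (-1386198236160) * (f1*f4^2) + C (-2557606181760) * (f2^3*f3) + C 1334812469760 * (f2*f3*f4) + C 4060688587200 * (f3^3)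
def g6 : PE := C (-87214410) * (f1^9) + C 669126660 * (f1^7*f2) + C (-57228687000) * (f1^6*f3) + C 17674352080 * (f1^5*f2^2) + C (-274961535930) * (f1^5*f4) + C 533343896550 * (f1^4*f2*f3) + C (-155570787060) * (f1^3*f2^3) + C 1311013701840 * (f1^3*f2*f4) + C (-81718872330) * (f1^3*f3^2) + C (-1313351694480) * (f1^2*f2^2*f3) + C (-269032929600) * (f1^2*f3*f4) + C 320413134720 * (f1*f2^4) + C (-1299006543360) * (f1*f2^2*f4) + C 831184552320 * (f1*f2*f3^2) + C 165659688960 * (f1*f4^2) + C 279587508480 * (f2^3*f3) + C (-328887936000) * (f2*f3*f4) + C (-86915687040) * (f3^3)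
def g7 : PE := C (-2446444296) * (f1^9) + C 20567148156 * (f1^7*f2) + C 225083717640 * (f1^6*f3) + C (-179453564928) * (f1^5*f2^2) + C (-4410249108696) * (f1^5*f4) + C (-5777657545176) * (f1^4*f2*f3) + C 1311013701840 * (f1^3*f2^3) + C 36321776224320 * (f1^3*f2*f4) + C (-4527569429400) * (f1^3*f3^2) + C 26177992774080 * (f1^2*f2^2*f3) + C (-114584183690880) * (f1^2*f3*f4) + C (-2672439889920) * (f1*f2^4) + C (-42041245946880) * (f1*f2^2*f4) + C (-9022048435200) * (f1*f2*f3^2) + C 79921364029440 * (f1*f4^2) + C (-28428427526400) * (f2^3*f3) + C 93015879459840 * (f2*f3*f4) + C 102000822410880 * (f3^3)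
def g8 : PE := C 5199228 * (f1^9) + C 7007783742 * (f1^7*f2) + C 51094250910 * (f1^6*f3) + C (-44352469206) * (f1^5*f2^2) + C 1114423353873 * (f1^5*f4) + C (-60652943667) * (f1^4*f2*f3) + C (-81718872330) * (f1^3*f2^3) + C (-4527569429400) * (f1^3*f2*f4) + C (-7303787842695) * (f1^3*f3^2) + C 1790928121440 * (f1^2*f2^2*f3) + C (-1100127606720) * (f1^2*f3*f4) + C 518579589120 * (f1*f2^4) + C (-2385852057600) * (f1*f2^2*f4) + C 36198115561920 * (f1*f2*f3^2) + C (-30166578585600) * (f1*f4^2) + C (-9425851539840) * (f2^3*f3) + C 60765063575040 * (f2*f3*f4) + C (-59500400040000) * (f3^3)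
def g9 : PE := C 1057999590 * (f1^9) + C (-18174293640) * (f1^7*f2) + C (-387461782980) * (f1^6*f3) + C 233089036620 * (f1^5*f2^2) + C (-4546984710960) * (f1^5*f4) + C 4689450943920 * (f1^4*f2*f3) + C (-1313351694480) * (f1^3*f2^3) + C 26177992774080 * (f1^3*f2*f4) + C 1790928121440 * (f1^3*f3^2) + C (-15992361610080) * (f1^2*f2^2*f3) + C (-5937320762880) * (f1^2*f3*f4) + C 2379942303360 * (f1*f2^4) + C (-36995490032640) * (f1*f2^2*f4) + C (-297957292800) * (f1*f2*f3^2) + C 11649914112000 * (f1*f4^2) + C 13463063297280 * (f2^3*f3) + C 13117718891520 * (f2*f3*f4) + C (-4445306006400) * (f3^3)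
def g10 : PE := C 2414921850 * (f1^9) + C 25620009480 * (f1^7*f2) + C 611080306560 * (f1^6*f3) + C (-231415922160) * (f1^5*f2^2) + C 20935382601600 * (f1^5*f4) + C (-1288878958080) * (f1^4*f2*f3) + C (-269032929600) * (f1^3*f2^3) + C (-114584183690880) * (f1^3*f2*f4) + C (-1100127606720) * (f1^3*f3^2) + C (-5937320762880) * (f1^2*f2^2*f3) + C 105254657184000 * (f1^2*f3*f4) + C 2101218420480 * (f1*f2^4) + C 129171638830080 * (f1*f2^2*f4) + C 41032736641920 * (f1*f2*f3^2) + C (-8740894801920) * (f1*f4^2) + C 4574487421440 * (f2^3*f3) + C (-37172384778240) * (f2*f3*f4) + C (-166212365748480) * (f3^3)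
def g11 : PE := C 89948736 * (f1^9) + C (-1147141056) * (f1^7*f2) + C 98738942400 * (f1^6*f3) + C (-34493738432) * (f1^5*f2^2) + C 504660758976 * (f1^5*f4) + C (-984683582784) * (f1^4*f2*f3) + C 320413134720 * (f1^3*f2^3) + C (-2672439889920) * (f1^3*f2*f4) + C 518579589120 * (f1^3*f3^2) + C 2379942303360 * (f1^2*f2^2*f3) + C 2101218420480 * (f1^2*f3*f4) + C (-675321781440) * (f1*f2^4) + C 2754489423360 * (f1*f2^2*f4) + C (-3026395848960) * (f1*f2*f3^2) + C (-2709342243840) * (f1*f4^2) + C (-26886182400) * (f2^3*f3) + C (-7357409280) * (f2*f3*f4) + C 385736567040 * (f3^3)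
def g12 : PE := C 4819176864 * (f1^9) + C (-29557977984) * (f1^7*f2) + C (-92007169920) * (f1^6*f3) + C 151640787072 * (f1^5*f2^2) + C 9162830721024 * (f1^5*f4) + C 7188119806464 * (f1^4*f2*f3) + C (-1299006543360) * (f1^3*f2^3) + C (-42041245946880) * (f1^3*f2*f4) + C (-2385852057600) * (f1^3*f3^2) + C (-36995490032640) * (f1^2*f2^2*f3) + C 129171638830080 * (f1^2*f3*f4) + C 2754489423360 * (f1*f2^4) + C (-34982965800960) * (f1*f2^2*f4) + C 67317658245120 * (f1*f2*f3^2) + C (-481491808788480) * (f1*f4^2) + C 40597544355840 * (f2^3*f3) + C 344243553361920 * (f2*f3*f4) + C (-296494683724800) * (f3^3)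
def g13 : PE := C (-1141731936) * (f1^9) + C (-13662221184) * (f1^7*f2) + C (-84425051520) * (f1^6*f3) + C 71084305152 * (f1^5*f2^2) + C (-1346964319296) * (f1^5*f4) + C (-1929014058816) * (f1^4*f2*f3) + C 831184552320 * (f1^3*f2^3) + C (-9022048435200) * (f1^3*f2*f4) + C 36198115561920 * (f1^3*f3^2) + C (-297957292800) * (f1^2*f2^2*f3) + C 41032736641920 * (f1^2*f3*f4) + C (-3026395848960) * (f1*f2^4) + C 67317658245120 * (f1*f2^2*f4) + C (-185571966318720) * (f1*f2*f3^2) + C 161809376194560 * (f1*f4^2) + C 38725465939200 * (f2^3*f3) + C (-384164851553280) * (f2*f3*f4) + C 296447115911040 * (f3^3)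
def g14 : PE := C (-25647075360) * (f1^9) + C 86913596160 * (f1^7*f2) + C (-861161518080) * (f1^6*f3) + C 314079598080 * (f1^5*f2^2) + C 5786843120640 * (f1^5*f4) + C (-1386198236160) * (f1^4*f2*f3) + C 165659688960 * (f1^3*f2^3) + C 79921364029440 * (f1^3*f2*f4) + C (-30166578585600) * (f1^3*f3^2) + C 11649914112000 * (f1^2*f2^2*f3) + C (-8740894801920) * (f1^2*f3*f4) + C (-2709342243840) * (f1*f2^4) + C (-481491808788480) * (f1*f2^2*f4) + C 161809376194560 * (f1*f2*f3^2) + C (-1409536035962880) * (f1*f4^2) + C (-13631725486080) * (f2^3*f3) + C 1480472782110720 * (f2*f3*f4) + C (-342813217628160) * (f3^3)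
def g15 : PE := C (-1283156640) * (f1^9) + C 23757701760 * (f1^7*f2) + C 183439278720 * (f1^6*f3) + C (-142600682880) * (f1^5*f2^2) + C 4797900570240 * (f1^5*f4) + C (-2557606181760) * (f1^4*f2*f3) + C 279587508480 * (f1^3*f2^3) + C (-28428427526400) * (f1^3*f2*f4) + C (-9425851539840) * (f1^3*f3^2) + C 13463063297280 * (f1^2*f2^2*f3) + C 4574487421440 * (f1^2*f3*f4) + C (-26886182400) * (f1*f2^4) + C 40597544355840 * (f1*f2^2*f4) + C 38725465939200 * (f1*f2*f3^2) + C (-13631725486080) * (f1*f4^2) + C (-24913019059200) * (f2^3*f3) + C 688350228480 * (f2*f3*f4) + C (-40146057008640) * (f3^3)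
def g16 : PE := C 2566313280 * (f1^9) + C (-47515403520) * (f1^7*f2) + C (-808688828160) * (f1^6*f3) + C 222228218880 * (f1^5*f2^2) + C (-41993659353600) * (f1^5*f4) + C 1334812469760 * (f1^4*f2*f3) + C (-328887936000) * (f1^3*f2^3) + C 93015879459840 * (f1^3*f2*f4) + C 60765063575040 * (f1^3*f3^2) + C 13117718891520 * (f1^2*f2^2*f3) + C (-37172384778240) * (f1^2*f3*f4) + C (-7357409280) * (f1*f2^4) + C 344243553361920 * (f1*f2^2*f4) + C (-384164851553280) * (f1*f2*f3^2) + C 1480472782110720 * (f1*f4^2) + C 688350228480 * (f2^3*f3) + C (-2147805140336640) * (f2*f3*f4) + C 1025529199073280 * (f3^3)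
def g17 : PE := C 427718880 * (f1^9) + C (-7919233920) * (f1^7*f2) + C (-208416516480) * (f1^6*f3) + C 26542512000 * (f1^5*f2^2) + C (-7707631187520) * (f1^5*f4) + C 4060688587200 * (f1^4*f2*f3) + C (-86915687040) * (f1^3*f2^3) + C 102000822410880 * (f1^3*f2*f4) + C (-59500400040000) * (f1^3*f3^2) + C (-4445306006400) * (f1^2*f2^2*f3) + C (-166212365748480) * (f1^2*f3*f4) + C 385736567040 * (f1*f2^4) + C (-296494683724800) * (f1*f2^2*f4) + C 296447115911040 * (f1*f2*f3^2) + C (-342813217628160) * (f1*f4^2) + C (-40146057008640) * (f2^3*f3) + C 1025529199073280 * (f2*f3*f4) + C (-496997393690880) * (f3^3)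
/-- the polynomial -/
def F : PE := (e1^9) * g0 + (e1^7*e2) * g1 + (e1^6*e3) * g2 + (e1^5*e2^2) * g3 + (e1^5*e4) * g4 + (e1^4*e2*e3) * g5 + (e1^3*e2^3) * g6 + (e1^3*e2*e4) * g7 + (e1^3*e3^2) * g8 + (e1^2*e2^2*e3) * g9 + (e1^2*e3*e4) * g10 + (e1*e2^4) * g11 + (e1*e2^2*e4) * g12 + (e1*e2*e3^2) * g13 + (e1*e4^2) * g14 + (e2^3*e3) * g15 + (e2*e3*e4) * g16 + (e3^3) * g17

theorem check : kcheck 3 3 95 10 F = true := by decide +kernel

end Vale.Agent.P154.Q4II
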