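import Vale.Agent.P154.Kron

/-!
# Certificate for four states (generated): minorant and multipliers
-/

namespace Vale.Agent.P154.Q4S

open PE

def a : PE := X 0
def b : PE := X 1
def c : PE := X 2
def t : PE := X 3
def A0 : PE := a + b + c + 1
def A1 : PE := b + c + 1
def A2 : PE := c + 1
def e1 : PE := a + 2*b + 3*c + 4
def e2 : PE := A0*A1 + A0*A2 + A1*A2 + A0 + A1 + A2
def e3 : PE := A0*A1*A2 + A0*A1 + A0*A2 + A1*A2
def e4 : PE := A0*A1*A2
def s0 : PE := C 3981312 * (e1^9)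
def s1 : PE := C (-19906560) * (e1^9) + C (-28901376) * (e1^7*e2) + C 460062720 * (e1^6*e3) + C (-132513792) * (e1^5*e2^2) + C 297271296 * (e1^5*e4) + C (-481296384) * (e1^4*e2*e3)
def s2 : PE := C 40338432 * (e1^9) + C 413761536 * (e1^7*e2) + C 920125440 * (e1^6*e3) + C (-265027584) * (e1^5*e2^2) + C 594542592 * (e1^5*e4) + C (-962592768) * (e1^4*e2*e3)
def s3 : PE := C (-41942016) * (e1^9) + C (-642060288) * (e1^7*e2) + C 2138185728 * (e1^6*e3) + C (-397541376) * (e1^5*e2^2) + C 891813888 * (e1^5*e4) + C (-1443889152) * (e1^4*e2*e3)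
def s4 : PE := C 24435648 * (e1^9) + C 427212288 * (e1^7*e2) + C (-8241813504) * (e1^6*e3) + C 1209901056 * (e1^5*e2^2) + C 56607178752 * (e1^5*e4) + C (-1925185536) * (e1^4*e2*e3)
def s5 : PE := C (-8056368) * (e1^9) + C (-150065280) * (e1^7*e2) + C 6592043520 * (e1^6*e3) + C (-658197504) * (e1^5*e2^2) + C (-116411019264) * (e1^5*e4) + C 12332961792 * (e1^4*e2*e3)
def s6 : PE := C 1399788 * (e1^9) + C 27430272 * (e1^7*e2) + C (-1958746752) * (e1^6*e3) + C 83509248 * (e1^5*e2^2) + C 79870731264 * (e1^5*e4) + C (-10012008960) * (e1^4*e2*e3) + C (-85854208) * (e1^3*e2^3) + C (-15186272256) * (e1^3*e2*e4) + C 2947083264 * (e1^3*e3^2)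
def s7 : PE := C (-99009) * (e1^9) + C (-1935144) * (e1^7*e2) + C 189652320 * (e1^6*e3) + C 7739328 * (e1^5*e2^2) + C (-18107366400) * (e1^5*e4) + C 2319417216 * (e1^4*e2*e3) + C 39625728 * (e1^3*e2^3) + C 8005994496 * (e1^3*e2*e4) + C (-1623656448) * (e1^3*e3^2) + C 5028864 * (e1^2*e2^2*e3) + C 3556417536 * (e1^2*e3*e4)
/-- the piece `[l/d, h/d]` -/
def F (l h d : ℤ) : PE := (C l + C h * t)^0 * (C d * (1 + t))^7 * s0 + (C l + C h * t)^1 * (C d * (1 + t))^6 * s1 + (C l + C h * t)^2 * (C d * (1 + t))^5 * s2 + (C l + C h * t)^3 * (C d * (1 + t))^4 * s3 + (C l + C h * t)^4 * (C d * (1 + t))^3 * s4 + (C l + C h * t)^5 * (C d * (1 + t))^2 * s5 + (C l + C h * t)^6 * (C d * (1 + t))^1 * s6 + (C l + C h * t)^7 * (C d * (1 + t))^0 * s7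

theorem check_0_1_2 : kcheck 3 1 71 10 (F 0 1 2) = true := by decide +kernel
theorem check_1_2_2 : kcheck 3 1 75 10 (F 1 2 2) = true := by decide +kernel
theorem check_2_3_2 : kcheck 3 1 78 10 (F 2 3 2) = true := by decide +kernel
theorem check_3_4_2 : kcheck 3 1 81 10 (F 3 4 2) = true := by decide +kernel
theorem check_2_3_1 : kcheck 3 1 77 10 (F 2 3 1) = true := by decide +kernel
theorem check_3_4_1 : kcheck 3 1 79 10 (F 3 4 1) = true := by decide +kernel

def MA : PE := C 27 * (e1^9) + C 918 * (e1^7*e2) + C (-5292) * (e1^6*e3) + C (-816) * (e1^5*e2^2) + C 36288 * (e1^5*e4) + C 6048 * (e1^4*e2*e3) + C (-1792) * (e1^3*e2^3) + C (-73728) * (e1^3*e2*e4) + C (-1728) * (e1^3*e3^2)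
theorem check_MA : kcheck 3 0 41 10 MA = true := by decide +kernel

def MB : PE := C 27 * (e1^9) + C (-252) * (e1^7*e2) + C (-1512) * (e1^6*e3) + C 1536 * (e1^5*e2^2) + C (-273024) * (e1^5*e4) + C 46656 * (e1^4*e2*e3) + C (-1280) * (e1^3*e2^3) + C 4340736 * (e1^3*e2*e4) + C (-615168) * (e1^3*e3^2) + C (-595200) * (e1^2*e2^2*e3) + C (-8985600) * (e1^2*e3*e4) + C 97024 * (e1*e2^4) + C (-9222144) * (e1*e2^2*e4) + C 4294656 * (e1*e2*e3^2) + C 55848960 * (e1*e4^2)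
theorem check_MB : kcheck 3 0 46 10 MB = true := by decide +kernel

end Vale.Agent.P154.Q4S
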